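import Vale.Agent.P266.AC.Eigen

namespace Vale.Agent.P266.AC

variable {k A R G : Type*} [Field k] [IsAlgClosed k] [CharZero k] [CommRing A] [IsDomain A]
  [UniqueFactorizationMonoid A] [Algebra k A] [CommRing R] [IsDomain R] [IsIntegrallyClosed R]
  [Algebra k R] [Algebra A R] [IsScalarTower k A R] [CommGroup G] [Fintype G]
  (ρ : G →* (R ≃ₐ[A] R))

noncomputable def conjDer (g : G) (δ : Derivation k R R) : Derivation k R R :=
  Derivation.mk'
    ((((ρ g).toAlgHom.restrictScalars k).toLinearMap).comp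
      ((δ : R →ₗ[k] R).comp (((ρ g⁻¹).toAlgHom.restrictScalars k).toLinearMap)))
    (fun a b => by
      have e : ∀ x, ρ g (ρ g⁻¹ x) = x := fun x => by
        rw [← AlgEquiv.mul_apply, ← map_mul, mul_inv_cancel, map_one, AlgEquiv.one_apply]
      change ρ g (δ (ρ g⁻¹ (a * b))) = a • ρ g (δ (ρ g⁻¹ b)) + b • ρ g (δ (ρ g⁻¹ a))
      simp only [map_mul (ρ g⁻¹), δ.leibniz, smul_eq_mul, map_add, map_mul (ρ g), e])

theorem conjDer_apply (g : G) (δ : Derivation k R R) (x : R) :
    conjDer ρ g δ x = ρ g (δ (ρ g⁻¹ x)) := rfl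

noncomputable def actD : G →* Module.End k (Derivation k R R) where
  toFun g :=
    { toFun := conjDer ρ g
      map_add' := fun a b => by ext x; simp [conjDer_apply]
      map_smul' := fun c a => by
        ext x
        simp [conjDer_apply, Algebra.smul_def, act_algk] }
  map_one' := by ext δ x; simp [conjDer_apply]
  map_mul' g h := by
    ext δ x
    simp [conjDer_apply, mul_inv_rev, mul_comm g h, mul_comm g⁻¹ h⁻¹]
    rw [← AlgEquiv.mul_apply, ← map_mul, mul_comm h g, map_mul, AlgEquiv.mul_apply]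

theorem actD_apply (g : G) (δ : Derivation k R R) (x : R) :
    actD (k := k) ρ g δ x = ρ g (δ (ρ g⁻¹ x)) := rfl

def EigDer (χ : G →* kˣ) (δ : Derivation k R R) : Prop := IsEig (actD ρ) χ δ

theorem EigDer.act {χ : G →* kˣ} {δ : Derivation k R R} (h : EigDer ρ χ δ) (g : G) (x : R) :
    ρ g (δ (ρ g⁻¹ x)) = algebraMap k R (χ g) * δ x := by
  rw [← actD_apply (k := k), h g, Derivation.smul_apply, Algebra.smul_def]

theorem EigDer.eigen_val {χ : G →* kˣ} {δ : Derivation k R R} (h : EigDer ρ χ δ) (a : A) :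
    Eigen ρ χ (δ (algebraMap A R a)) :=
  eigen_mk ρ (fun g => by simpa using h.act ρ g (algebraMap A R a))

theorem natCast_ne_zero_R (K : Type*) [Field K] [CharZero K] {S : Type*} [CommRing S]
    [Algebra K S] [Nontrivial S] {j : ℕ} (hj : j ≠ 0) : (j : S) ≠ 0 := by
  have := (algebraMap K S).injective.ne (Nat.cast_ne_zero (R := K).2 hj)
  simpa using this

theorem smul_inv_cast {j : ℕ} (hj : j ≠ 0) (x : R) :
    (j : R) * ((j : k)⁻¹ • x) = x := by
  rw [Algebra.smul_def, ← mul_assoc, ← map_natCast (algebraMap k R) j, ← map_mul,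
    mul_inv_cancel₀ (Nat.cast_ne_zero.2 hj), map_one, one_mul]

variable {ρ} (H : IsCover ρ)
include H

theorem IsCover.der_zero {δ : Derivation k R R} (h : ∀ a, δ (algebraMap A R a) = 0) :
    δ = 0 := by
  classical
  ext r
  rw [← sum_proj (actR (k := k) ρ) r, map_sum, Derivation.zero_apply]
  refine Finset.sum_eq_zero (fun χ _ => ?_)
  set s := proj (actR (k := k) ρ) χ r
  rcases eq_or_ne s 0 with hs | hs
  · rw [hs, map_zero]
  obtain ⟨b, hb⟩ := H.exists_norm (proj_isEig (actR (k := k) ρ) χ r : Eigen ρ χ s)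
  have h1 := h b
  rw [hb, δ.leibniz_pow, nsmul_eq_mul, smul_eq_mul, ← mul_assoc] at h1
  exact (mul_eq_zero.1 h1).resolve_left
    (mul_ne_zero (natCast_ne_zero_R k Fintype.card_ne_zero) (pow_ne_zero _ hs))

theorem IsCover.descend {a c : A} (ha : a ≠ 0) (h : algebraMap A R a ∣ algebraMap A R c) :
    a ∣ c := by
  obtain ⟨q, hq⟩ := h
  obtain ⟨a', rfl⟩ := H.fixed q (fun g => by
    refine mul_left_cancel₀ (H.map_ne_zero ha) ?_
    rw [← hq]
    conv_rhs => rw [← (ρ g).commutes c, hq, map_mul, AlgEquiv.commutes])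
  exact ⟨a', H.inj (by rw [hq, map_mul])⟩

variable [IsNoetherianRing A]

theorem IsCover.exists_down {χ : G →* kˣ} {δ : Derivation k R R} (h : EigDer ρ χ δ)
    (hδ : δ ≠ 0) :
    H.gen χ ≠ 0 ∧
      ∃ D : Derivation k A A, ∀ a, δ (algebraMap A R a) = algebraMap A R (D a) * H.gen χ := by
  have hg : H.gen χ ≠ 0 := by
    intro e
    refine hδ (H.der_zero (fun a => ?_))
    obtain ⟨b, hb⟩ := H.gen_spans χ (h.eigen_val ρ a)
    rw [hb, e, mul_zero]
  refine ⟨hg, ?_⟩
  choose D hD using fun a => H.gen_spans χ (h.eigen_val ρ a)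
  have inj : ∀ a b : A, algebraMap A R a * H.gen χ = algebraMap A R b * H.gen χ → a = b :=
    fun a b e => H.inj (mul_right_cancel₀ hg e)
  refine ⟨Derivation.mk'
    { toFun := D
      map_add' := (fun a b => inj _ _ ?_)
      map_smul' := (fun c a => inj _ _ ?_) } (fun a b => inj _ _ ?_), hD⟩
  · rw [← hD, map_add (algebraMap A R), map_add (algebraMap A R), add_mul, ← hD, ← hD, δ.map_add]
  · simp only [RingHom.id_apply, Algebra.smul_def, map_mul, ← IsScalarTower.algebraMap_apply]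
    rw [← hD, map_mul, ← IsScalarTower.algebraMap_apply, mul_assoc, ← hD, δ.leibniz,
      Derivation.map_algebraMap, smul_zero, add_zero, smul_eq_mul]
  · simp only [LinearMap.coe_mk, AddHom.coe_mk, smul_eq_mul, map_add, map_mul]
    rw [← hD, map_mul, δ.leibniz, add_mul, mul_assoc, ← hD, mul_assoc, ← hD, smul_eq_mul,
      smul_eq_mul]

theorem IsCover.necessity {χ φ : G →* kˣ} {δ : Derivation k R R} {D : Derivation k A A}
    (hχ : H.gen χ ≠ 0) (hφ : H.gen φ ≠ 0)
    (hD : ∀ a, δ (algebraMap A R a) = algebraMap A R (D a) * H.gen χ) {p : A} (hp : Prime p)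
    (hw : 0 < ord p (H.nrm φ)) (hpD : ¬ p ∣ D p) :
    Fintype.card G ≤ ord p (H.nrm χ) + ord p (H.nrm φ) := by
  set m := Fintype.card G with hm
  set r := H.gen φ
  set b := H.nrm φ
  have hb0 : b ≠ 0 := H.nrm_ne_zero hφ
  have hc0 : H.nrm χ ≠ 0 := H.nrm_ne_zero hχ
  have hb : algebraMap A R b = r ^ m := H.nrm_eq φ
  have h1 := hD b
  rw [hb, δ.leibniz_pow, nsmul_eq_mul, smul_eq_mul] at h1
  have hdv : algebraMap A R b ∣ algebraMap A R (D b) * H.gen χ * r := by
    refine ⟨(m : R) * δ r, ?_⟩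
    rw [← h1, hb]
    have e : r ^ m = r ^ (m - 1) * r := by
      rw [← pow_succ, Nat.sub_add_cancel (show 1 ≤ m from Fintype.card_pos)]
    rw [e]
    ring
  have h2 : b ^ m ∣ D b ^ m * H.nrm χ * b := by
    refine H.descend (pow_ne_zero _ hb0) ?_
    rw [map_pow, map_mul, map_mul, map_pow, hb, H.nrm_eq, ← hm, ← mul_pow, ← mul_pow]
    rw [hb] at hdv
    exact pow_dvd_pow_of_dvd hdv m
  have hDb : D b ≠ 0 := by
    intro e
    obtain ⟨u, hu, hpu⟩ := exists_eq_pow_ord_mul hp hb0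
    generalize ord p b = v at hu hw
    obtain ⟨w, rfl⟩ : ∃ w, v = w + 1 := ⟨v - 1, by omega⟩
    have e2 : D b = p ^ w * ((w + 1 : ℕ) * D p * u + p * D u) := by
      rw [hu, D.leibniz, D.leibniz_pow, smul_eq_mul, smul_eq_mul, nsmul_eq_mul, smul_eq_mul,
        Nat.add_sub_cancel]
      push_cast; ring
    rw [e] at e2
    have e3 := (mul_eq_zero.1 e2.symm).resolve_left (pow_ne_zero _ hp.ne_zero)
    have hju : IsUnit ((w + 1 : ℕ) : A) := by
      have : IsUnit (((w + 1 : ℕ) : k)) := IsUnit.mk0 _ (Nat.cast_ne_zero.2 (by omega))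
      simpa using this.map (algebraMap k A)
    have e4 : p ∣ (w + 1 : ℕ) * D p * u :=
      ⟨- D u, by linear_combination e3⟩
    rcases hp.dvd_or_dvd e4 with h3 | h3
    · rcases hp.dvd_or_dvd h3 with h4 | h4
      · exact hp.not_isUnit (isUnit_of_dvd_unit h4 hju)
      · exact hpD h4
    · exact hpu h3
  have h3 := ord_le_of_dvd hp
    (mul_ne_zero (mul_ne_zero (pow_ne_zero _ hDb) hc0) hb0) h2
  rw [ord_pow hp hb0, ord_mul hp (mul_ne_zero (pow_ne_zero _ hDb) hc0) hb0,
    ord_mul hp (pow_ne_zero _ hDb) hc0, ord_pow hp hDb] at h3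
  have h4 := (ord_der_le D hp hb0 hDb).2.2 hpD hw
  rw [← h4, Nat.mul_add, mul_one] at h3
  omega

def IsCover.Cond (ψ : G →* kˣ) (D : Derivation k A A) : Prop :=
  ∀ χ : G →* kˣ, H.gen χ ≠ 0 → ∀ p : A, Prime p → 0 < ord p (H.nrm χ) →
    p ∣ D p ∨ Fintype.card G ≤ ord p (H.nrm ψ) + ord p (H.nrm χ)

theorem IsCover.extend {ψ : G →* kˣ} (hψ : H.gen ψ ≠ 0) {D : Derivation k A A}
    (hc : H.Cond ψ D) :
    ∃ δ : Derivation k R R, ∀ a, δ (algebraMap A R a) = algebraMap A R (D a) * H.gen ψ := by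
  classical
  set m := Fintype.card G with hm
  have hm0 : m ≠ 0 := Fintype.card_ne_zero
  set Ψ := H.gen ψ
  have hmp : ∀ x : R, x ^ m = x ^ (m - 1) * x := fun x => by
    rw [← pow_succ, Nat.sub_add_cancel Fintype.card_pos]
  have he : ∀ χ : G →* kˣ, ∃ e : R,
      (m : R) * H.gen χ ^ (m - 1) * e = algebraMap A R (D (H.nrm χ)) * Ψ ∨ H.gen χ = 0 := by
    intro χ
    by_cases hχ : H.gen χ = 0
    · exact ⟨0, Or.inr hχ⟩
    set b := H.nrm χ
    set r := H.gen χ
    have hb0 : b ≠ 0 := H.nrm_ne_zero hχ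
    have hb : algebraMap A R b = r ^ m := H.nrm_eq χ
    have hdv : algebraMap A R b ∣ algebraMap A R (D b) * Ψ * r := by
      rcases eq_or_ne (D b) 0 with hDb | hDb
      · simp [hDb]
      refine H.dvd_of_norm_dvd (b := b ^ m) (c := D b ^ m * H.nrm ψ * b)
        (by rw [map_pow]) (by rw [map_mul, map_mul, map_pow, hb, H.nrm_eq, ← hm, ← mul_pow, ← mul_pow])
        (dvd_of_ord_le (pow_ne_zero _ hb0)
          (mul_ne_zero (mul_ne_zero (pow_ne_zero _ hDb) (H.nrm_ne_zero hψ)) hb0) (fun p hp => ?_))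
      rw [ord_pow hp hb0, ord_mul hp (mul_ne_zero (pow_ne_zero _ hDb) (H.nrm_ne_zero hψ)) hb0,
        ord_mul hp (pow_ne_zero _ hDb) (H.nrm_ne_zero hψ), ord_pow hp hDb]
      obtain ⟨h1, h2, _⟩ := ord_der_le D hp hb0 hDb
      rcases Nat.eq_zero_or_pos (ord p b) with h0 | hpos
      · rw [h0, mul_zero]; exact Nat.zero_le _
      rcases hc χ hχ p hp hpos with h | h
      · have := Nat.mul_le_mul_left m (h2 h)
        omega
      · have := Nat.mul_le_mul_left m h1
        rw [Nat.mul_add, mul_one] at this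
        change m ≤ ord p (H.nrm ψ) + ord p b at h
        omega
    obtain ⟨e', he'⟩ := hdv
    refine ⟨(m : k)⁻¹ • e', Or.inl (mul_right_cancel₀ hχ ?_)⟩
    rw [he', hb, hmp r]
    calc (m : R) * r ^ (m - 1) * ((m : k)⁻¹ • e') * r
        = r ^ (m - 1) * r * ((m : R) * ((m : k)⁻¹ • e')) := by ring
      _ = r ^ (m - 1) * r * e' := by rw [smul_inv_cast hm0]
  choose e he using he
  let P : R → R → Prop := fun s t => ∀ b : A, algebraMap A R b = s ^ m →
    (m : R) * s ^ (m - 1) * t = algebraMap A R (D b) * Ψ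
  have P_uniq : ∀ (χ : G →* kˣ) (s : R), Eigen ρ χ s → s ≠ 0 → ∀ t t', P s t → P s t' → t = t' := by
    intro χ s hs hs0 t t' ht ht'
    obtain ⟨b, hb⟩ := H.exists_norm hs
    exact mul_left_cancel₀ (mul_ne_zero (natCast_ne_zero_R k hm0) (pow_ne_zero _ hs0))
      ((ht b hb).trans (ht' b hb).symm)
  choose coef hcoef using fun (χ : G →* kˣ) (x : R) =>
    H.gen_spans χ (proj_isEig (actR (k := k) ρ) χ x : Eigen ρ χ _)
  let Lx : (G →* kˣ) → R → R := fun χ x =>
    algebraMap A R (D (coef χ x)) * Ψ * H.gen χ + algebraMap A R (coef χ x) * e χ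
  let L : R → R := fun x => ∑ χ : G →* kˣ, if H.gen χ = 0 then 0 else Lx χ x
  have coef_inj : ∀ (χ : G →* kˣ) (a a' : A), H.gen χ ≠ 0 →
      algebraMap A R a * H.gen χ = algebraMap A R a' * H.gen χ → a = a' :=
    fun χ a a' h0 h => H.inj (mul_right_cancel₀ h0 h)
  have L_add : ∀ x y, L (x + y) = L x + L y := by
    intro x y
    simp only [L, ← Finset.sum_add_distrib]
    refine Finset.sum_congr rfl (fun χ _ => ?_)
    split
    · simp
    · next h =>
      have : coef χ (x + y) = coef χ x + coef χ y := coef_inj χ _ _ h (by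
        rw [← hcoef, map_add, map_add, add_mul, ← hcoef, ← hcoef])
      simp only [Lx, this, map_add]; ring
  have L_smul : ∀ (c : k) x, L (c • x) = c • L x := by
    intro c x
    simp only [L, Finset.smul_sum]
    refine Finset.sum_congr rfl (fun χ _ => ?_)
    split
    · simp
    · next h =>
      have : coef χ (c • x) = c • coef χ x := coef_inj χ _ _ h (by
        rw [← hcoef, LinearMap.map_smul, hcoef, Algebra.smul_def, Algebra.smul_def, map_mul,
          ← IsScalarTower.algebraMap_apply, mul_assoc])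
      simp only [Lx, this, D.map_smul]
      simp only [Algebra.smul_def, map_mul, ← IsScalarTower.algebraMap_apply]
      ring
  have L_eig : ∀ (φ : G →* kˣ) (s : R), Eigen ρ φ s → P s (L s) := by
    intro φ s hs b hb
    have hz : ∀ χ, χ ≠ φ → (if H.gen χ = 0 then 0 else Lx χ s) = 0 := by
      intro χ hne
      split
      · rfl
      · next h =>
        have : coef χ s = 0 := coef_inj χ _ _ h (by
          rw [← hcoef, proj_of_isEig _ hs, if_neg hne, map_zero, zero_mul])
        simp [Lx, this]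
    have hL : L s = if H.gen φ = 0 then 0 else Lx φ s :=
      Finset.sum_eq_single φ (fun χ _ hne => hz χ hne) (by simp)
    obtain ⟨a, ha⟩ := H.gen_spans φ hs
    by_cases hφ : H.gen φ = 0
    · have hs0 : s = 0 := by rw [ha, hφ, mul_zero]
      have hb0 : b = 0 := H.inj (by rw [hb, hs0, zero_pow hm0, map_zero])
      rw [hL, if_pos hφ, hb0]; simp
    have hco : coef φ s = a := coef_inj φ _ _ hφ (by
      rw [← hcoef, proj_of_isEig _ hs, if_pos rfl, ha])
    rw [hL, if_neg hφ, H.norm_of_gen ha hb]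
    simp only [Lx, hco]
    have h1 := (he φ).resolve_right hφ
    rw [D.leibniz, D.leibniz_pow, smul_eq_mul, smul_eq_mul, smul_eq_mul, nsmul_eq_mul, ← hm, ha]
    simp only [map_add, map_mul, map_pow, map_natCast, H.nrm_eq, ← hm]
    rw [hmp (H.gen φ), hmp (algebraMap A R a), mul_pow]
    linear_combination
      (algebraMap A R a) ^ (m - 1) * algebraMap A R a * h1
  have L_mul_eig : ∀ (φ φ' : G →* kˣ) (s s' : R), Eigen ρ φ s → Eigen ρ φ' s' →
      L (s * s') = s * L s' + s' * L s := by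
    intro φ φ' s s' hs hs'
    have L0 : L 0 = 0 := by simpa using L_add 0 0
    rcases eq_or_ne s 0 with rfl | hs0
    · simp [L0]
    rcases eq_or_ne s' 0 with rfl | hs0'
    · simp [L0]
    refine P_uniq _ _ (hs.mul ρ hs') (mul_ne_zero hs0 hs0') _ _ (L_eig _ _ (hs.mul ρ hs'))
      (fun c hc' => ?_)
    obtain ⟨b, hb⟩ := H.exists_norm hs
    obtain ⟨b', hb'⟩ := H.exists_norm hs'
    have : c = b * b' := H.inj (by rw [hc', map_mul, hb, hb', mul_pow])
    rw [this, D.leibniz, map_add, smul_eq_mul, smul_eq_mul, map_mul, map_mul, hb, hb', ← hm]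
    have h1 := L_eig φ s hs b hb
    have h2 := L_eig φ' s' hs' b' hb'
    rw [hmp s, hmp s', mul_pow]
    linear_combination (s' ^ (m - 1) * s') * h1 + (s ^ (m - 1) * s) * h2
  let Ll : R →ₗ[k] R := { toFun := L, map_add' := L_add, map_smul' := L_smul }
  have L_mul : ∀ x y, L (x * y) = x * L y + y * L x := by
    intro x y
    have hS : ∀ (f : (G →* kˣ) → R), L (∑ χ, f χ) = ∑ χ, L (f χ) := fun f => map_sum Ll f _
    have hx := sum_proj (actR (k := k) ρ) x
    have hy := sum_proj (actR (k := k) ρ) y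
    conv_lhs => rw [← hx, ← hy, Finset.sum_mul_sum, hS]
    conv_rhs => rw [← hx, ← hy, hS, hS, Finset.sum_mul_sum, Finset.sum_mul_sum, Finset.sum_comm
      (s := Finset.univ) (t := Finset.univ) (f := fun χ φ =>
        proj (actR (k := k) ρ) χ y * L (proj (actR (k := k) ρ) φ x)), ← Finset.sum_add_distrib]
    refine Finset.sum_congr rfl (fun χ _ => ?_)
    rw [hS, ← Finset.sum_add_distrib]
    exact Finset.sum_congr rfl (fun φ _ =>
      L_mul_eig χ φ _ _ (proj_isEig _ _ _) (proj_isEig _ _ _))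
  refine ⟨Derivation.mk' Ll L_mul, fun a => ?_⟩
  change L (algebraMap A R a) = _
  rcases eq_or_ne a 0 with rfl | ha
  · rw [map_zero, map_zero, map_zero, zero_mul]; exact map_zero Ll
  refine P_uniq _ _ (eigen_algebraMap ρ a : Eigen ρ (1 : G →* kˣ) _) (H.map_ne_zero ha) _ _
    (L_eig _ _ (eigen_algebraMap ρ a)) (fun b hb => ?_)
  have : b = a ^ m := H.inj (by rw [hb, map_pow])
  rw [this, D.leibniz_pow, nsmul_eq_mul, smul_eq_mul, map_mul, map_mul, map_pow, map_natCast]
  ring

end Vale.Agent.P266.AC
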