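import Vale.Agent.P266.AC.Invariant
import Vale.Agent.P266.AC.Deriv

namespace Vale.Agent.P266.AC

variable {k A R G : Type*} [Field k] [IsAlgClosed k] [CharZero k] [CommRing A] [IsDomain A]
  [IsLocalRing A] [IsNoetherianRing A] [UniqueFactorizationMonoid A] [Algebra k A]
  [CommRing R] [IsDomain R] [IsIntegrallyClosed R] [IsLocalRing R] [Algebra k R] [Algebra A R]
  [IsScalarTower k A R] [CommGroup G] [Fintype G] {ρ : G →* (R ≃ₐ[A] R)} {n : ℕ}

theorem ord_assoc {p q a : A} (hp : Prime p) (hq : Prime q) (h : Associated p q) (ha : a ≠ 0) :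
    ord p a = ord q a :=
  le_antisymm
    ((pow_dvd_iff_le_ord hq ha).1
      (((pow_dvd_iff_le_ord hp ha).2 le_rfl) |> (h.pow_pow).dvd_iff_dvd_left.1))
    ((pow_dvd_iff_le_ord hp ha).1
      (((pow_dvd_iff_le_ord hq ha).2 le_rfl) |> (h.symm.pow_pow).dvd_iff_dvd_left.1))

theorem sum_der_apply {S K : Type*} [CommRing S] [CommRing K] [Algebra K S] {ι : Type*}
    (s : Finset ι) (c : ι → S) (D : ι → Derivation K S S) (a : S) :
    (∑ i ∈ s, c i • D i) a = ∑ i ∈ s, c i * D i a := by
  rw [← Derivation.coeFnAddMonoidHom_apply, map_sum]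
  simp

theorem actD_smul (g : G) (a : R) (δ : Derivation k R R) :
    actD (k := k) ρ g (a • δ) = ρ g a • actD (k := k) ρ g δ := by
  ext x
  simp [actD_apply]

variable (H : IsCover ρ) (C : Chart k A n)
include H C

theorem IsCover.der_eq_zero_of_chart {δ : Derivation k R R}
    (h : ∀ i, δ (algebraMap A R (C.x i)) = 0) : δ = 0 := by
  rw [← sum_proj (actD (k := k) ρ) δ]
  refine Finset.sum_eq_zero (fun χ _ => ?_)
  by_contra hne
  have hE : EigDer ρ χ (proj (actD (k := k) ρ) χ δ) := proj_isEig _ _ _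
  obtain ⟨hg, D, hD⟩ := H.exists_down hE hne
  refine hne (H.der_zero (fun a => ?_))
  have hx : ∀ i, D (C.x i) = 0 := fun i => by
    have h1 := hD (C.x i)
    rw [proj_apply, Derivation.smul_apply, ← Derivation.coeFnAddMonoidHom_apply, map_sum,
      Finset.sum_apply, Finset.sum_eq_zero, smul_zero] at h1
    · exact H.inj (by rw [map_zero]; exact (mul_eq_zero.1 h1.symm).resolve_right hg)
    · intro g _
      rw [Derivation.coeFnAddMonoidHom_apply, Derivation.smul_apply, actD_apply,
        AlgEquiv.commutes, h i, map_zero, smul_zero]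
  rw [hD, C.eq_zero D hx]; simp

theorem IsCover.der_finite [IsNoetherianRing R] : Module.Finite R (Derivation k R R) := by
  let f : Derivation k R R →ₗ[R] (Fin n → R) :=
    { toFun := fun δ i => δ (algebraMap A R (C.x i))
      map_add' := fun _ _ => rfl
      map_smul' := fun _ _ => rfl }
  refine Module.Finite.of_injective f ((injective_iff_map_eq_zero f).2 (fun δ hδ => ?_))
  exact H.der_eq_zero_of_chart C (fun i => congr_fun hδ i)

structure Frame (n : ℕ) where
  chr : Fin n → (G →* kˣ)
  δ : Module.Basis (Fin n) R (Derivation k R R)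
  D : Fin n → Derivation k A A
  eig : ∀ i, EigDer ρ (chr i) (δ i)
  alive : ∀ i, H.gen (chr i) ≠ 0
  down : ∀ i a, δ i (algebraMap A R a) = algebraMap A R (D i a) * H.gen (chr i)
  gens : Gens D
  indep : ∀ a : Fin n → A, ∑ i, a i • D i = 0 → a = 0
  expand : ∀ ψ, H.gen ψ ≠ 0 → ∀ E : Derivation k A A, H.Cond ψ E →
    ∃ γ : Fin n → A, E = ∑ i, γ i • D i ∧
      ∀ i p, Prime p → ord p (H.nrm ψ) < ord p (H.nrm (chr i)) → p ∣ γ i

theorem IsCover.exists_cofactor {p : A} (hp : Prime p) :
    ∃ c : A, ¬ p ∣ c ∧ ∀ χ : G →* kˣ, H.gen χ ≠ 0 → ∀ q : A, Prime q →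
      0 < ord q (H.nrm χ) → q ∣ c ∨ Associated q p := by
  classical
  have hu : ∀ χ : G →* kˣ, ∃ u : A, ¬ p ∣ u ∧
      (H.gen χ ≠ 0 → H.nrm χ = p ^ ord p (H.nrm χ) * u) := by
    intro χ
    by_cases hχ : H.gen χ = 0
    · exact ⟨1, fun h => hp.not_isUnit (isUnit_of_dvd_one h), fun h => absurd hχ h⟩
    · obtain ⟨u, h1, h2⟩ := exists_eq_pow_ord_mul hp (H.nrm_ne_zero hχ)
      exact ⟨u, h2, fun _ => h1⟩
  choose u hu1 hu2 using hu
  refine ⟨∏ χ : G →* kˣ, u χ, fun h => ?_, fun χ hχ q hq hpos => ?_⟩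
  · obtain ⟨χ, _, h⟩ := hp.exists_mem_finset_dvd h
    exact hu1 χ h
  · have h1 := (dvd_iff_ord_pos hq (H.nrm_ne_zero hχ)).2 hpos
    rw [hu2 χ hχ] at h1
    rcases hq.dvd_or_dvd h1 with h | h
    · exact Or.inr ((hq.dvd_prime_iff_associated hp).1 (hq.dvd_of_dvd_pow h))
    · exact Or.inl (h.trans (Finset.dvd_prod_of_mem _ (Finset.mem_univ χ)))

theorem IsCover.exists_key {p : A} (hp : Prime p) :
    ∃ c : A, ¬ p ∣ c ∧ ∃ ψ : G →* kˣ, H.gen ψ ≠ 0 ∧
      ∀ E : Derivation k A A, H.Cond ψ (c • E) := by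
  classical
  obtain ⟨c, hc, hcq⟩ := H.exists_cofactor C hp
  let S := Finset.univ.filter (fun χ : G →* kˣ => H.gen χ ≠ 0 ∧ 0 < ord p (H.nrm χ))
  by_cases hS : S.Nonempty
  · obtain ⟨χ0, hχ0, hmin⟩ := S.exists_min_image (fun χ => ord p (H.nrm χ)) hS
    simp only [S, Finset.mem_filter, Finset.mem_univ, true_and] at hχ0 hmin
    refine ⟨c, hc, χ0⁻¹, H.alive_inv hχ0.1, fun E χ hχ q hq hpos => ?_⟩
    rcases hcq χ hχ q hq hpos with h | h
    · left; rw [Derivation.smul_apply, smul_eq_mul]; exact h.mul_right _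
    · right
      rw [ord_assoc hq hp h (H.nrm_ne_zero (H.alive_inv hχ0.1)),
        ord_assoc hq hp h (H.nrm_ne_zero hχ)]
      rw [ord_assoc hq hp h (H.nrm_ne_zero hχ)] at hpos
      have h1 := H.wt_inv hχ0.1 hp hχ0.2
      have h2 := hmin χ ⟨hχ, hpos⟩
      omega
  · refine ⟨c, hc, 1, H.gen_one_isUnit.ne_zero, fun E χ hχ q hq hpos => ?_⟩
    rcases hcq χ hχ q hq hpos with h | h
    · left; rw [Derivation.smul_apply, smul_eq_mul]; exact h.mul_right _
    · exfalso
      refine hS ⟨χ, ?_⟩
      rw [ord_assoc hq hp h (H.nrm_ne_zero hχ)] at hpos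
      simp [S, hχ, hpos]

theorem IsCover.exists_frame [IsNoetherianRing R] [Module.Free R (Derivation k R R)] :
    Nonempty (Frame (k := k) H n) := by
  classical
  have := H.der_finite C
  let B := Module.Free.chooseBasis R (Derivation k R R)
  let v : (G →* kˣ) × Module.Free.ChooseBasisIndex R (Derivation k R R) → Derivation k R R :=
    fun z => proj (actD (k := k) ρ) z.1 (B z.2)
  let v' : Set.range v → Derivation k R R := Subtype.val
  have hv : Submodule.span R (Set.range v') = ⊤ := by
    rw [Subtype.range_val, ← top_le_iff, ← B.span_eq, Submodule.span_le]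
    rintro _ ⟨j, rfl⟩
    rw [← sum_proj (actD (k := k) ρ) (B j)]
    exact Submodule.sum_mem _ (fun χ _ => Submodule.subset_span ⟨(χ, j), rfl⟩)
  have := Module.finitePresentation_of_projective R (Derivation k R R)
  obtain ⟨κ, a, b, hb⟩ := Module.exists_basis_of_span_of_flat v' hv
  have : Fintype κ := @Fintype.ofFinite κ (Module.Finite.finite_basis b)
  have hbe : ∀ i, ∃ χ, EigDer ρ χ (b i) := fun i => by
    obtain ⟨⟨χ, j⟩, hz⟩ := (a i).2
    refine ⟨χ, ?_⟩
    rw [hb i]
    change EigDer ρ χ (a i).1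
    rw [← hz]
    exact proj_isEig _ _ _
  choose ch hch using hbe
  have hdn := fun i => H.exists_down (hch i) (b.ne_zero i)
  choose hal D hD using hdn
  have indep : ∀ c : κ → A, ∑ i, c i • D i = 0 → c = 0 := by
    intro c hc
    let q : κ → R := fun i => ∏ j ∈ Finset.univ.erase i, H.gen (ch j)
    have h0 : ∑ i, (algebraMap A R (c i) * q i) • b i = 0 := by
      refine H.der_zero (fun x => ?_)
      rw [sum_der_apply]
      calc ∑ i, algebraMap A R (c i) * q i * b i (algebraMap A R x)
          = (∏ j, H.gen (ch j)) * algebraMap A R (∑ i, c i * D i x) := by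
            rw [map_sum, Finset.mul_sum]
            refine Finset.sum_congr rfl (fun i _ => ?_)
            rw [hD, ← Finset.mul_prod_erase _ _ (Finset.mem_univ i), map_mul]
            ring
        _ = 0 := by
            have := Derivation.congr_fun hc x
            rw [sum_der_apply, Derivation.zero_apply] at this
            rw [this, map_zero, mul_zero]
    funext i
    have h1 := Fintype.linearIndependent_iff.1 b.linearIndependent _ h0 i
    refine H.inj ?_
    rw [Pi.zero_apply, map_zero]
    exact (mul_eq_zero.1 h1).resolve_right (Finset.prod_ne_zero_iff.2 (fun j _ => hal j))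
  have expand : ∀ ψ, H.gen ψ ≠ 0 → ∀ E : Derivation k A A, H.Cond ψ E →
      ∃ γ : κ → A, E = ∑ i, γ i • D i ∧
        ∀ i p, Prime p → ord p (H.nrm ψ) < ord p (H.nrm (ch i)) → p ∣ γ i := by
    intro ψ hψ E hE
    obtain ⟨d, hd⟩ := H.extend hψ hE
    have hde : EigDer ρ ψ d := fun g => by
      rw [← sub_eq_zero]
      refine H.der_zero (fun x => ?_)
      rw [Derivation.sub_apply, Derivation.smul_apply, actD_apply, AlgEquiv.commutes, hd,
        map_mul, AlgEquiv.commutes, (H.gen_eigen ψ).act ρ g, Algebra.smul_def]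
      ring
    let c : κ → R := fun i => b.repr d i
    have hc : ∑ i, c i • b i = d := b.sum_repr d
    have hce : ∀ i, Eigen ρ ψ (c i * H.gen (ch i)) := by
      intro i
      refine eigen_mk ρ (fun g => ?_)
      have h1 : ∑ j, (ρ g (c j) * algebraMap k R (ch j g)) • b j
          = ∑ j, (algebraMap k R (ψ g) * c j) • b j := by
        calc ∑ j, (ρ g (c j) * algebraMap k R (ch j g)) • b j
            = actD (k := k) ρ g (∑ j, c j • b j) := by
              rw [map_sum]
              refine Finset.sum_congr rfl (fun j _ => ?_)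
              rw [actD_smul, (hch j) g, mul_smul, algebraMap_smul]
          _ = algebraMap k R (ψ g) • d := by rw [hc, hde g, algebraMap_smul]
          _ = _ := by
              rw [← hc, Finset.smul_sum]
              simp only [smul_smul]
      have h2 := sub_eq_zero.2 h1
      rw [← Finset.sum_sub_distrib] at h2
      simp only [← sub_smul] at h2
      have h3 := sub_eq_zero.1 (Fintype.linearIndependent_iff.1 b.linearIndependent _ h2 i)
      rw [map_mul, (H.gen_eigen (ch i)).act ρ g, ← mul_assoc, h3, mul_assoc]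
    choose γ hγ using fun i => H.gen_spans ψ (hce i)
    refine ⟨γ, ?_, fun i p hp hlt => ?_⟩
    · ext x
      refine H.inj (mul_right_cancel₀ hψ ?_)
      rw [← hd, ← hc, sum_der_apply, sum_der_apply, map_sum, Finset.sum_mul]
      refine Finset.sum_congr rfl (fun i _ => ?_)
      rw [hD, map_mul]
      linear_combination algebraMap A R (D i x) * hγ i
    · rcases eq_or_ne (γ i) 0 with h0 | h0
      · rw [h0]; exact dvd_zero p
      have hs0 : c i * H.gen (ch i) ≠ 0 := by
        rw [hγ i]; exact mul_ne_zero (H.map_ne_zero h0) hψ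
      obtain ⟨bs, hbs⟩ := H.exists_norm (hce i)
      have hbs0 : bs ≠ 0 := fun e => pow_ne_zero (Fintype.card G) hs0 (by
        rw [← hbs, e, map_zero])
      have hdv : H.nrm (ch i) ∣ bs := H.descend (H.nrm_ne_zero (hal i)) (by
        rw [H.nrm_eq, hbs]; exact pow_dvd_pow_of_dvd (dvd_mul_left _ _) _)
      have h4 := ord_le_of_dvd hp hbs0 hdv
      rw [H.norm_of_gen (hγ i) hbs, ord_mul hp (pow_ne_zero _ h0) (H.nrm_ne_zero hψ),
        ord_pow hp h0] at h4
      rw [dvd_iff_ord_pos hp h0]
      by_contra hz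
      rw [Nat.eq_zero_of_not_pos hz, mul_zero, zero_add] at h4
      omega
  let M : Matrix κ (Fin n) A := fun i j => D i (C.x j)
  have hkey : ∀ p : A, Prime p → ∃ c : A, ¬ p ∣ c ∧
      ∃ X : Matrix (Fin n) κ A, X * M = c • (1 : Matrix (Fin n) (Fin n) A) := by
    intro p hp
    obtain ⟨c, hc, ψ, hψ, hE⟩ := H.exists_key C hp
    choose γ hγ _ using fun j => expand ψ hψ _ (hE (C.d j))
    refine ⟨c, hc, Matrix.of γ, ?_⟩
    ext j l
    have := Derivation.congr_fun (hγ j) (C.x l)
    rw [Derivation.smul_apply, sum_der_apply, C.dual, smul_eq_mul] at this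
    rw [Matrix.mul_apply, Matrix.smul_apply, Matrix.one_apply, smul_eq_mul]
    simp only [Matrix.of_apply, M]
    exact this.symm
  have hli : LinearIndependent A M := by
    rw [Fintype.linearIndependent_iff]
    intro c hc i
    refine congr_fun (indep c (C.eq_zero _ (fun j => ?_))) i
    rw [sum_der_apply]
    simpa [M] using congr_fun hc j
  have hle : Fintype.card κ ≤ n := by
    simpa using hli.fintype_card_le_finrank
  have hge : n ≤ Fintype.card κ := by
    obtain ⟨c, hc, X, hX⟩ : ∃ c : A, c ≠ 0 ∧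
        ∃ X : Matrix (Fin n) κ A, X * M = c • (1 : Matrix (Fin n) (Fin n) A) := by
      by_cases hex : ∃ p : A, Prime p
      · obtain ⟨p, hp⟩ := hex
        obtain ⟨c, hc, hX⟩ := hkey p hp
        exact ⟨c, fun e => hc (e ▸ dvd_zero p), hX⟩
      · refine ⟨1, one_ne_zero, ?_⟩
        have hcond : ∀ E : Derivation k A A, H.Cond 1 E :=
          fun E χ _ p hp _ => absurd ⟨p, hp⟩ hex
        choose γ hγ _ using fun j => expand 1 H.gen_one_isUnit.ne_zero _ (hcond (C.d j))
        refine ⟨Matrix.of γ, ?_⟩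
        ext j l
        have := Derivation.congr_fun (hγ j) (C.x l)
        rw [sum_der_apply, C.dual] at this
        rw [Matrix.mul_apply, one_smul, Matrix.one_apply]
        simp only [Matrix.of_apply, M]
        exact this.symm
    have hmv : ∀ w : Fin n → A, Matrix.vecMul (Matrix.vecMul w X) M = c • w := fun w => by
      rw [Matrix.vecMul_vecMul, hX, Matrix.vecMul_smul, Matrix.vecMul_one]
    have hinj : Function.Injective (Matrix.vecMulLinear X) := fun w w' hw => by
      have h1 := congr_arg (fun u => Matrix.vecMul u M) hw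
      simp only [Matrix.vecMulLinear_apply, hmv] at h1
      exact smul_right_injective (Fin n → A) hc h1
    simpa using LinearMap.finrank_le_finrank_of_injective hinj
  let e : κ ≃ Fin n := Fintype.equivFinOfCardEq (le_antisymm hle hge)
  let M' : Matrix (Fin n) (Fin n) A := fun i j => D (e.symm i) (C.x j)
  have hdet : IsUnit M'.det := by
    have hne : M'.det ≠ 0 := by
      intro h0
      obtain ⟨w, hw0, hw⟩ := Matrix.exists_vecMul_eq_zero_iff.2 h0
      have hli' := hli.comp e.symm e.symm.injective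
      rw [Fintype.linearIndependent_iff] at hli'
      refine hw0 (funext (fun i => hli' w ?_ i))
      rw [← hw]
      funext j
      simp [Matrix.vecMul, dotProduct, M, M']
    refine isUnit_of_ord_zero hne (fun p hp => ?_)
    by_contra h
    obtain ⟨c, hc, X, hX⟩ := hkey p hp
    have hX' : (X.submatrix id e.symm) * M' = c • (1 : Matrix (Fin n) (Fin n) A) := by
      rw [← hX]
      ext j l
      simp only [Matrix.mul_apply, Matrix.submatrix_apply, id, M', M]
      exact Fintype.sum_equiv e.symm _ _ (fun _ => rfl)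
    have h1 := congr_arg Matrix.det hX'
    rw [Matrix.det_mul, Matrix.det_smul, Matrix.det_one, mul_one, Fintype.card_fin] at h1
    refine hc (hp.dvd_of_dvd_pow (n := n) ?_)
    rw [← h1]
    exact ((dvd_iff_ord_pos hp hne).2 (Nat.pos_of_ne_zero h)).mul_left _
  refine ⟨⟨fun i => ch (e.symm i), b.reindex e, fun i => D (e.symm i), fun i => ?_,
    fun i => hal _, fun i x => ?_, fun E => ?_, fun c hc => ?_, fun ψ hψ E hE => ?_⟩⟩
  · rw [Module.Basis.reindex_apply]; exact hch _
  · rw [Module.Basis.reindex_apply]; exact hD _ x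
  · refine ⟨Matrix.vecMul (fun j => E (C.x j)) M'⁻¹, ?_⟩
    rw [← sub_eq_zero]
    refine C.eq_zero _ (fun j => ?_)
    rw [Derivation.sub_apply, sum_der_apply, sub_eq_zero]
    have := congr_fun (Matrix.vecMul_vecMul (fun j => E (C.x j)) M'⁻¹ M') j
    rw [Matrix.nonsing_inv_mul _ hdet, Matrix.vecMul_one] at this
    exact this.symm
  · have h1 := indep (fun i => c (e i)) (by
      rw [← hc]
      exact Fintype.sum_equiv e _ _ (fun i => by simp))
    funext i
    simpa using congr_fun h1 (e.symm i)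
  · obtain ⟨γ, hγ, hγ'⟩ := expand ψ hψ E hE
    refine ⟨fun i => γ (e.symm i), ?_, fun i => hγ' (e.symm i)⟩
    rw [hγ]
    exact Fintype.sum_equiv e _ _ (fun i => by simp)

end Vale.Agent.P266.AC
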