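import Mathlib

namespace Vale.Agent.P266.AC

variable {k G : Type*} [Field k] [IsAlgClosed k] [CharZero k] [CommGroup G] [Fintype G]

theorem sum_char_eq_zero {χ : G →* kˣ} (hχ : χ ≠ 1) : ∑ g : G, (χ g : k) = 0 := by
  obtain ⟨h, hh⟩ : ∃ h, χ h ≠ 1 := by
    by_contra hne
    push Not at hne
    exact hχ (MonoidHom.ext hne)
  have : (χ h : k) * ∑ g : G, (χ g : k) = ∑ g : G, (χ g : k) := by
    rw [Finset.mul_sum]
    refine Fintype.sum_equiv (Equiv.mulLeft h) _ _ (fun g => ?_)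
    simp
  have h1 : ((χ h : k) - 1) * ∑ g : G, (χ g : k) = 0 := by rw [sub_mul, this, one_mul, sub_self]
  refine (mul_eq_zero.1 h1).resolve_left (sub_ne_zero.2 ?_)
  simpa using hh

noncomputable instance charFintype : Fintype (G →* kˣ) := by
  haveI : NeZero ((Monoid.exponent G : ℕ) : k) :=
    ⟨Nat.cast_ne_zero.2 (Monoid.exponent_ne_zero_of_finite)⟩
  exact Fintype.ofEquiv G
    (CommGroup.monoidHom_mulEquiv_of_hasEnoughRootsOfUnity G k).some.symm.toEquiv

theorem card_char : Fintype.card (G →* kˣ) = Fintype.card G := by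
  haveI : NeZero ((Monoid.exponent G : ℕ) : k) :=
    ⟨Nat.cast_ne_zero.2 (Monoid.exponent_ne_zero_of_finite)⟩
  exact Fintype.card_congr (CommGroup.monoidHom_mulEquiv_of_hasEnoughRootsOfUnity G k).some.toEquiv

theorem sum_dual_eq_zero {g : G} (hg : g ≠ 1) : ∑ χ : G →* kˣ, (χ g : k) = 0 := by
  haveI : NeZero ((Monoid.exponent G : ℕ) : k) :=
    ⟨Nat.cast_ne_zero.2 (Monoid.exponent_ne_zero_of_finite)⟩
  obtain ⟨φ, hφ⟩ := CommGroup.exists_apply_ne_one_of_hasEnoughRootsOfUnity G k hg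
  have : (φ g : k) * ∑ χ : G →* kˣ, (χ g : k) = ∑ χ : G →* kˣ, (χ g : k) := by
    rw [Finset.mul_sum]
    refine Fintype.sum_equiv (Equiv.mulLeft φ) _ _ (fun χ => ?_)
    simp
  have h1 : ((φ g : k) - 1) * ∑ χ : G →* kˣ, (χ g : k) = 0 := by
    rw [sub_mul, this, one_mul, sub_self]
  refine (mul_eq_zero.1 h1).resolve_left (sub_ne_zero.2 ?_)
  simpa using hφ

theorem char_pow_card (χ : G →* kˣ) (g : G) : (χ g : k) ^ Fintype.card G = 1 := by
  rw [← Units.val_pow_eq_pow_val, ← map_pow, pow_card_eq_one, map_one, Units.val_one]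

variable {V : Type*} [AddCommGroup V] [Module k V]

def IsEig (π : G →* Module.End k V) (χ : G →* kˣ) (v : V) : Prop :=
  ∀ g, π g v = (χ g : k) • v

noncomputable def proj (π : G →* Module.End k V) (χ : G →* kˣ) : V →ₗ[k] V :=
  (Fintype.card G : k)⁻¹ • ∑ g : G, ((χ g⁻¹ : kˣ) : k) • π g

theorem proj_apply (π : G →* Module.End k V) (χ : G →* kˣ) (v : V) :
    proj π χ v = (Fintype.card G : k)⁻¹ • ∑ g : G, ((χ g⁻¹ : kˣ) : k) • π g v := by
  simp [proj]

theorem proj_isEig (π : G →* Module.End k V) (χ : G →* kˣ) (v : V) :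
    IsEig π χ (proj π χ v) := by
  intro h
  rw [proj_apply, LinearMap.map_smul, map_sum, smul_comm ((χ h : k))]
  congr 1
  rw [Finset.smul_sum]
  refine Fintype.sum_equiv (Equiv.mulLeft h) _ _ (fun g => ?_)
  rw [LinearMap.map_smul, Equiv.coe_mulLeft, map_mul π, Module.End.mul_apply, smul_smul]
  congr 1
  rw [← Units.val_mul, ← map_mul χ, mul_inv_rev, mul_comm g⁻¹, mul_inv_cancel_left]

theorem sum_proj (π : G →* Module.End k V) (v : V) :
    ∑ χ : G →* kˣ, proj π χ v = v := by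
  classical
  simp only [proj_apply]
  rw [← Finset.smul_sum, Finset.sum_comm, Finset.sum_eq_single (1 : G)]
  · simp [card_char, ← Nat.cast_smul_eq_nsmul k]
  · intro g _ hg
    rw [← Finset.sum_smul, sum_dual_eq_zero (by simpa using hg), zero_smul]
  · simp

theorem proj_of_isEig (π : G →* Module.End k V) [DecidableEq (G →* kˣ)] {χ φ : G →* kˣ} {v : V}
    (hv : IsEig π φ v) : proj π χ v = if χ = φ then v else 0 := by
  rw [proj_apply]
  split
  · next h =>
    subst h
    have : ∀ g : G, ((χ g⁻¹ : kˣ) : k) • π g v = v := fun g => by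
      rw [hv g, smul_smul, ← Units.val_mul, ← map_mul]; simp
    simp only [this]
    simp [← Nat.cast_smul_eq_nsmul k]
  · next h =>
    have h1 : ∀ g : G, ((χ g⁻¹ : kˣ) : k) • π g v = (((χ⁻¹ * φ) g : kˣ) : k) • v := fun g => by
      rw [hv g, smul_smul, MonoidHom.mul_apply, MonoidHom.inv_apply, Units.val_mul, map_inv]
    simp_rw [h1]
    have hne : χ⁻¹ * φ ≠ 1 := fun e => h ((inv_mul_eq_one (G := G →* kˣ)).1 e)
    rw [← Finset.sum_smul, sum_char_eq_zero hne, zero_smul, smul_zero]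

end Vale.Agent.P266.AC
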