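import Vale.Agent.P266.AC.Weights
import Vale.Agent.P266.AC.Characters

namespace Vale.Agent.P266.AC

variable {k A R G : Type*} [Field k] [IsAlgClosed k] [CharZero k] [CommRing A] [IsDomain A]
  [UniqueFactorizationMonoid A] [Algebra k A] [CommRing R] [IsDomain R] [IsIntegrallyClosed R]
  [Algebra k R] [Algebra A R] [IsScalarTower k A R] [CommGroup G] [Fintype G]

structure IsCover (ρ : G →* (R ≃ₐ[A] R)) : Prop where
  inj : Function.Injective (algebraMap A R)
  fixed : ∀ r : R, (∀ g, ρ g r = r) → ∃ a : A, algebraMap A R a = r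

variable (ρ : G →* (R ≃ₐ[A] R))

theorem act_algk (g : G) (c : k) : ρ g (algebraMap k R c) = algebraMap k R c := by
  rw [IsScalarTower.algebraMap_apply k A R, AlgEquiv.commutes]

noncomputable def actR : G →* Module.End k R where
  toFun g := ((ρ g).toAlgHom.restrictScalars k).toLinearMap
  map_one' := by ext; simp
  map_mul' g h := by ext; simp

theorem actR_apply (g : G) (r : R) : actR (k := k) ρ g r = ρ g r := rfl

def Eigen (χ : G →* kˣ) (r : R) : Prop := IsEig (actR ρ) χ r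

theorem Eigen.act {χ : G →* kˣ} {r : R} (h : Eigen ρ χ r) (g : G) :
    ρ g r = algebraMap k R (χ g) * r := by
  rw [← Algebra.smul_def]; exact h g

theorem eigen_mk {χ : G →* kˣ} {r : R}
    (h : ∀ g, ρ g r = algebraMap k R (χ g) * r) : Eigen ρ χ r := fun g => by
  rw [actR_apply, h g, Algebra.smul_def]

theorem Eigen.mul {χ φ : G →* kˣ} {r s : R} (hr : Eigen ρ χ r) (hs : Eigen ρ φ s) :
    Eigen ρ (χ * φ) (r * s) :=
  eigen_mk ρ (fun g => by
    rw [map_mul, hr.act ρ, hs.act ρ, MonoidHom.mul_apply, Units.val_mul, map_mul]; ring)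

theorem eigen_algebraMap (a : A) : Eigen ρ (1 : G →* kˣ) (algebraMap A R a) :=
  eigen_mk ρ (fun g => by simp)

theorem Eigen.pow {χ : G →* kˣ} {r : R} (hr : Eigen ρ χ r) (j : ℕ) :
    Eigen ρ (χ ^ j) (r ^ j) := by
  induction j with
  | zero =>
    have e : χ ^ 0 = 1 := by ext g; simp
    rw [e]; simpa using eigen_algebraMap (k := k) ρ (1 : A)
  | succ j ih =>
    have e : χ ^ (j + 1) = χ ^ j * χ := by ext g; simp [pow_succ]
    rw [pow_succ r, e]; exact ih.mul ρ hr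

theorem Eigen.algebraMap_mul {χ : G →* kˣ} {r : R} (hr : Eigen ρ χ r) (a : A) :
    Eigen ρ χ (algebraMap A R a * r) := by
  have e : χ = 1 * χ := by ext g; simp
  rw [e]; exact (eigen_algebraMap ρ a).mul ρ hr

theorem char_pow_eq_one (χ : G →* kˣ) : χ ^ Fintype.card G = 1 := by
  ext g; simpa using char_pow_card χ g

variable {ρ} (H : IsCover ρ)
include H

theorem IsCover.exists_preimage {r : R} (hr : Eigen ρ (1 : G →* kˣ) r) :
    ∃ a : A, algebraMap A R a = r :=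
  H.fixed r (fun g => by simpa using hr.act ρ g)

theorem IsCover.map_ne_zero {a : A} (ha : a ≠ 0) : algebraMap A R a ≠ 0 :=
  (map_ne_zero_iff _ H.inj).2 ha

theorem IsCover.exists_norm {χ : G →* kˣ} {r : R} (hr : Eigen ρ χ r) :
    ∃ b : A, algebraMap A R b = r ^ Fintype.card G := by
  refine H.exists_preimage (k := k) ?_
  simpa [char_pow_eq_one] using hr.pow ρ (Fintype.card G)

omit [UniqueFactorizationMonoid A] in
theorem IsCover.dvd_of_norm_dvd {r s : R} {b c : A}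
    (hb : algebraMap A R b = r ^ Fintype.card G) (hc : algebraMap A R c = s ^ Fintype.card G)
    (h : b ∣ c) : r ∣ s := by
  rw [← IsIntegrallyClosed.pow_dvd_pow_iff (Fintype.card_ne_zero (α := G)), ← hb, ← hc]
  exact map_dvd _ h

theorem IsCover.exists_gen [IsNoetherianRing A] (χ : G →* kˣ) :
    ∃ (r : R) (b : A), Eigen ρ χ r ∧ algebraMap A R b = r ^ Fintype.card G ∧
      (∀ s, Eigen ρ χ s → ∃ a : A, s = algebraMap A R a * r) ∧
      (r ≠ 0 → ∀ p : A, Prime p → ord p b < Fintype.card G) := by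
  classical
  set m := Fintype.card G with hm
  have hm0 : m ≠ 0 := Fintype.card_ne_zero
  by_cases hz : ∀ s, Eigen ρ χ s → s = 0
  · exact ⟨0, 0, fun g => by simp, by simp [zero_pow hm0], fun s hs => ⟨0, by simp [hz s hs]⟩,
      fun h => absurd rfl h⟩
  push Not at hz
  obtain ⟨s0, hs0, hs0'⟩ := hz
  let S : Set (Ideal A) :=
    {J | ∃ (r : R) (b : A), Eigen ρ χ r ∧ r ≠ 0 ∧ algebraMap A R b = r ^ m ∧
      J = Ideal.span {b}}
  obtain ⟨b0, hb0⟩ := H.exists_norm hs0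
  obtain ⟨J, ⟨r, b, hr, hr0, hb, rfl⟩, hmax⟩ :=
    set_has_maximal_iff_noetherian.2 (inferInstance : IsNoetherian A A) S
      ⟨_, s0, b0, hs0, hs0', hb0, rfl⟩
  have hbne : b ≠ 0 := fun e => pow_ne_zero m hr0 (by rw [← hb, e, map_zero])
  have hlt : ∀ p : A, Prime p → ord p b < m := by
    intro p hp
    by_contra hge
    push Not at hge
    obtain ⟨b', hb'⟩ := (pow_dvd_iff_le_ord hp hbne).2 hge
    have hdvd : algebraMap A R p ∣ r := by
      rw [← IsIntegrallyClosed.pow_dvd_pow_iff hm0, ← hb, ← map_pow]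
      exact map_dvd _ ⟨b', hb'⟩
    obtain ⟨r', hr'⟩ := hdvd
    have hp0 := H.map_ne_zero hp.ne_zero
    have hr'E : Eigen ρ χ r' := eigen_mk ρ (fun g => by
      refine mul_left_cancel₀ hp0 ?_
      have := hr.act ρ g
      rw [hr', map_mul, AlgEquiv.commutes] at this
      rw [this]; ring)
    have hb'eq : algebraMap A R b' = r' ^ m := by
      refine mul_left_cancel₀ (pow_ne_zero m hp0) ?_
      rw [← mul_pow, ← hr', ← hb, hb', map_mul, map_pow]
    have hr'0 : r' ≠ 0 := right_ne_zero_of_mul (hr' ▸ hr0)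
    refine hmax (Ideal.span {b'}) ⟨r', b', hr'E, hr'0, hb'eq, rfl⟩ ?_
    rw [Ideal.span_singleton_lt_span_singleton]
    refine ⟨right_ne_zero_of_mul (hb' ▸ hbne), p ^ m, ?_, by rw [hb']; ring⟩
    exact fun hu => hp.not_isUnit ((isUnit_pow_iff hm0).1 hu)
  refine ⟨r, b, hr, hb, fun s hs => ?_, fun _ => hlt⟩
  rcases eq_or_ne s 0 with rfl | hs'
  · exact ⟨0, by simp⟩
  obtain ⟨c, hc⟩ : ∃ c : A, algebraMap A R c = s * r ^ (m - 1) := by
    refine H.exists_preimage (k := k) ?_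
    have := hs.mul ρ (hr.pow ρ (m - 1))
    have e : χ * χ ^ (m - 1) = 1 := by
      rw [← char_pow_eq_one χ]; ext g
      simp [← pow_succ', hm, Nat.sub_add_cancel (Fintype.card_pos (α := G))]
    rwa [e] at this
  obtain ⟨bs, hbs⟩ := H.exists_norm hs
  have hc0 : c ≠ 0 := fun e => mul_ne_zero hs' (pow_ne_zero _ hr0) (by rw [← hc, e, map_zero])
  have hbs0 : bs ≠ 0 := fun e => pow_ne_zero m hs' (by rw [← hbs, e, map_zero])
  have hrel : bs * b ^ (m - 1) = c ^ m := H.inj (by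
    rw [map_mul, map_pow, map_pow, hbs, hb, hc, mul_pow, ← pow_mul, ← pow_mul, mul_comm m])
  obtain ⟨a, ha⟩ : b ∣ c := dvd_of_ord_le hbne hc0 (fun p hp => by
    have h1 := congr_arg (ord p) hrel
    rw [ord_mul hp hbs0 (pow_ne_zero _ hbne), ord_pow hp hbne, ord_pow hp hc0] at h1
    have h2 := hlt p hp
    by_contra hcon
    have h3 : m * (ord p c + 1) ≤ m * ord p b := Nat.mul_le_mul_left m (by omega)
    rw [Nat.mul_add, mul_one, ← h1] at h3
    have h4 : (m - 1) * ord p b + ord p b = m * ord p b := by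
      rw [← Nat.succ_mul, Nat.succ_eq_add_one, Nat.sub_add_cancel (by omega)]
    omega)
  refine ⟨a, mul_right_cancel₀ (pow_ne_zero (m - 1) hr0) ?_⟩
  rw [← hc, ha, map_mul, hb, mul_assoc, ← pow_succ', Nat.sub_add_cancel (by omega)]
  ring

variable [IsNoetherianRing A]

noncomputable def IsCover.gen (χ : G →* kˣ) : R := (H.exists_gen χ).choose

noncomputable def IsCover.nrm (χ : G →* kˣ) : A := (H.exists_gen χ).choose_spec.choose

theorem IsCover.gen_eigen (χ : G →* kˣ) : Eigen ρ χ (H.gen χ) :=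
  (H.exists_gen χ).choose_spec.choose_spec.1

theorem IsCover.nrm_eq (χ : G →* kˣ) :
    algebraMap A R (H.nrm χ) = H.gen χ ^ Fintype.card G :=
  (H.exists_gen χ).choose_spec.choose_spec.2.1

theorem IsCover.gen_spans (χ : G →* kˣ) {s : R} (hs : Eigen ρ χ s) :
    ∃ a : A, s = algebraMap A R a * H.gen χ :=
  (H.exists_gen χ).choose_spec.choose_spec.2.2.1 s hs

theorem IsCover.wt_lt {χ : G →* kˣ} (hχ : H.gen χ ≠ 0) {p : A} (hp : Prime p) :
    ord p (H.nrm χ) < Fintype.card G :=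
  (H.exists_gen χ).choose_spec.choose_spec.2.2.2 hχ p hp

theorem IsCover.nrm_ne_zero {χ : G →* kˣ} (hχ : H.gen χ ≠ 0) : H.nrm χ ≠ 0 := fun e =>
  pow_ne_zero (Fintype.card G) hχ (by rw [← H.nrm_eq, e, map_zero])

theorem IsCover.norm_of_gen {χ : G →* kˣ} {s : R} {a bs : A}
    (hs : s = algebraMap A R a * H.gen χ) (hbs : algebraMap A R bs = s ^ Fintype.card G) :
    bs = a ^ Fintype.card G * H.nrm χ :=
  H.inj (by rw [map_mul, map_pow, H.nrm_eq, hbs, hs, mul_pow])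

theorem IsCover.ord_rel {χ : G →* kˣ} {s : R} (hs : Eigen ρ χ s) (hs0 : s ≠ 0) {bs : A}
    (hbs : algebraMap A R bs = s ^ Fintype.card G) {p : A} (hp : Prime p) :
    H.gen χ ≠ 0 ∧ ∃ j, ord p bs = Fintype.card G * j + ord p (H.nrm χ) := by
  obtain ⟨a, ha⟩ := H.gen_spans χ hs
  have hg : H.gen χ ≠ 0 := fun e => hs0 (by rw [ha, e, mul_zero])
  have ha0 : a ≠ 0 := fun e => hs0 (by rw [ha, e, map_zero, zero_mul])
  refine ⟨hg, ord p a, ?_⟩
  rw [H.norm_of_gen ha hbs, ord_mul hp (pow_ne_zero _ ha0) (H.nrm_ne_zero hg), ord_pow hp ha0]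

theorem IsCover.alive_mul {χ φ : G →* kˣ} (hχ : H.gen χ ≠ 0) (hφ : H.gen φ ≠ 0) :
    H.gen (χ * φ) ≠ 0 := fun e => by
  obtain ⟨a, ha⟩ := H.gen_spans (χ * φ) ((H.gen_eigen χ).mul ρ (H.gen_eigen φ))
  exact mul_ne_zero hχ hφ (by rw [ha, e, mul_zero])

theorem IsCover.alive_pow {χ : G →* kˣ} (hχ : H.gen χ ≠ 0) (j : ℕ) :
    H.gen (χ ^ j) ≠ 0 := fun e => by
  obtain ⟨a, ha⟩ := H.gen_spans (χ ^ j) ((H.gen_eigen χ).pow ρ j)
  exact pow_ne_zero j hχ (by rw [ha, e, mul_zero])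

theorem IsCover.inv_eq_pow (χ : G →* kˣ) : χ⁻¹ = χ ^ (Fintype.card G - 1) := by
  ext g
  have h := char_pow_card (k := k) χ g
  rw [← Nat.sub_add_cancel (Fintype.card_pos (α := G)), pow_succ] at h
  simpa using (eq_inv_of_mul_eq_one_left h).symm

theorem IsCover.alive_inv {χ : G →* kˣ} (hχ : H.gen χ ≠ 0) : H.gen χ⁻¹ ≠ 0 := by
  rw [H.inv_eq_pow]; exact H.alive_pow hχ _

theorem IsCover.wt_mul {χ φ : G →* kˣ} (hχ : H.gen χ ≠ 0) (hφ : H.gen φ ≠ 0) {p : A}
    (hp : Prime p) : ∃ j, ord p (H.nrm χ) + ord p (H.nrm φ)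
      = Fintype.card G * j + ord p (H.nrm (χ * φ)) := by
  obtain ⟨_, j, hj⟩ := H.ord_rel (bs := H.nrm χ * H.nrm φ)
    ((H.gen_eigen χ).mul ρ (H.gen_eigen φ)) (mul_ne_zero hχ hφ)
    (by rw [map_mul, H.nrm_eq, H.nrm_eq, mul_pow]) hp
  exact ⟨j, by rw [← hj, ord_mul hp (H.nrm_ne_zero hχ) (H.nrm_ne_zero hφ)]⟩

theorem IsCover.gen_one_isUnit : IsUnit (H.gen (1 : G →* kˣ)) := by
  obtain ⟨a, ha⟩ := H.gen_spans (1 : G →* kˣ) (eigen_algebraMap ρ (1 : A))
  rw [map_one] at ha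
  exact isUnit_of_dvd_one ⟨algebraMap A R a, ha.trans (mul_comm _ _)⟩

theorem IsCover.wt_one {p : A} (hp : Prime p) : ord p (H.nrm (1 : G →* kˣ)) = 0 := by
  obtain ⟨_, j, hj⟩ := H.ord_rel (bs := 1) (eigen_algebraMap ρ (1 : A) : Eigen ρ (1 : G →* kˣ) _)
    (by simp) (by simp) hp
  rw [ord_isUnit hp isUnit_one] at hj
  omega

theorem IsCover.wt_inv {χ : G →* kˣ} (hχ : H.gen χ ≠ 0) {p : A} (hp : Prime p)
    (h : 0 < ord p (H.nrm χ)) :
    ord p (H.nrm χ⁻¹) + ord p (H.nrm χ) = Fintype.card G := by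
  obtain ⟨j, hj⟩ := H.wt_mul (H.alive_inv hχ) hχ hp
  have e : χ⁻¹ * χ = 1 := by ext g; simp
  rw [e, H.wt_one hp, add_zero] at hj
  have h1 := H.wt_lt hχ hp
  have h2 := H.wt_lt (H.alive_inv hχ) hp
  have : j < 2 := by
    by_contra hc
    have := Nat.mul_le_mul_left (Fintype.card G) (not_lt.1 hc)
    omega
  interval_cases j <;> omega

end Vale.Agent.P266.AC
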