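import Mathlib

namespace Vale.Agent.P266.AC

open IsLocalRing

variable (k A : Type*) [Field k] [CommRing A] [Algebra k A] [IsLocalRing A]

structure Chart (n : ℕ) where
  x : Fin n → A
  d : Fin n → Derivation k A A
  span_x : Ideal.span (Set.range x) = maximalIdeal A
  res : ∀ a : A, ∃ c : k, a - algebraMap k A c ∈ maximalIdeal A
  dual : ∀ i j, d i (x j) = if i = j then 1 else 0

variable {k A} {n : ℕ} (C : Chart k A n)

theorem natCast_isUnit [CharZero k] {j : ℕ} (hj : j ≠ 0) : IsUnit (j : A) := by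
  have : IsUnit ((j : k)) := IsUnit.mk0 _ (Nat.cast_ne_zero.2 hj)
  simpa using this.map (algebraMap k A)

theorem der_mem_pow (D : Derivation k A A) (j : ℕ) :
    ∀ f ∈ maximalIdeal A ^ (j + 1), D f ∈ maximalIdeal A ^ j := by
  induction j with
  | zero => intro f _; simp
  | succ j ih =>
    intro f hf
    rw [pow_succ] at hf
    refine Submodule.mul_induction_on hf (fun a ha b hb => ?_) (fun a b ha hb => ?_)
    · rw [D.leibniz, smul_eq_mul, smul_eq_mul]
      refine add_mem (Ideal.mul_mem_right _ _ ha) ?_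
      rw [pow_succ']
      exact Ideal.mul_mem_mul hb (ih a ha)
    · rw [map_add]; exact add_mem ha hb

namespace Chart

theorem x_mem (i : Fin n) : C.x i ∈ maximalIdeal A := by
  rw [← C.span_x]; exact Ideal.subset_span ⟨i, rfl⟩

theorem exists_coeff {a : A} (ha : a ∈ maximalIdeal A) :
    ∃ c : Fin n → A, ∑ i, c i * C.x i = a := by
  rw [← C.span_x] at ha
  exact Ideal.mem_span_range_iff_exists_fun.1 ha

theorem eq_zero [IsNoetherianRing A] (D : Derivation k A A) (h : ∀ i, D (C.x i) = 0) :
    D = 0 := by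
  have key : ∀ (j : ℕ) (a : A), D a ∈ maximalIdeal A ^ j := by
    intro j
    induction j with
    | zero => intro a; simp
    | succ j ih =>
      intro a
      obtain ⟨c, hc⟩ := C.res a
      obtain ⟨b, hb⟩ := C.exists_coeff hc
      have : D a = D (∑ i, b i * C.x i) := by
        rw [hb, map_sub, D.map_algebraMap, sub_zero]
      rw [this, map_sum]
      refine Submodule.sum_mem _ (fun i _ => ?_)
      rw [D.leibniz, h i, smul_zero, zero_add, smul_eq_mul, pow_succ']
      exact Ideal.mul_mem_mul (C.x_mem i) (ih _)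
  ext a
  have : D a ∈ ⨅ j : ℕ, maximalIdeal A ^ j := Ideal.mem_iInf.2 (fun j => key j a)
  rw [Ideal.iInf_pow_eq_bot_of_isLocalRing _ (IsLocalRing.maximalIdeal.isMaximal A).ne_top] at this
  simpa using this

theorem der_apply_sum (c : Fin n → A) (D : Fin n → Derivation k A A) (a : A) :
    (∑ i, c i • D i) a = ∑ i, c i * D i a := by
  rw [← Derivation.coeFnAddMonoidHom_apply, map_sum]
  simp

theorem decomp [IsNoetherianRing A] (D : Derivation k A A) :
    D = ∑ i, D (C.x i) • C.d i := by
  rw [← sub_eq_zero]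
  refine C.eq_zero _ (fun j => ?_)
  rw [Derivation.sub_apply, der_apply_sum]
  simp [C.dual, sub_eq_zero]

theorem decomp_apply [IsNoetherianRing A] (D : Derivation k A A) (a : A) :
    D a = ∑ i, D (C.x i) * C.d i a := by
  conv_lhs => rw [C.decomp D]
  rw [der_apply_sum]

def E : Derivation k A A := ∑ i, C.x i • C.d i

theorem E_apply (a : A) : C.E a = ∑ i, C.x i * C.d i a := der_apply_sum _ _ _

theorem E_mem (a : A) : C.E a ∈ maximalIdeal A := by
  rw [C.E_apply]
  exact Submodule.sum_mem _ (fun i _ => Ideal.mul_mem_right _ _ (C.x_mem i))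

theorem E_sub_mem {b : A} (hb : b ∈ maximalIdeal A) : C.E b - b ∈ maximalIdeal A ^ 2 := by
  obtain ⟨c, rfl⟩ := C.exists_coeff hb
  have hx : ∀ j, C.E (C.x j) = C.x j := by
    intro j; rw [C.E_apply]; simp [C.dual]
  rw [map_sum, ← Finset.sum_sub_distrib]
  refine Submodule.sum_mem _ (fun i _ => ?_)
  rw [C.E.leibniz, hx, smul_eq_mul, smul_eq_mul, add_sub_cancel_left, pow_two]
  exact Ideal.mul_mem_mul (C.x_mem i) (C.E_mem _)

theorem euler (j : ℕ) : ∀ f ∈ maximalIdeal A ^ j,
    C.E f - (j : A) * f ∈ maximalIdeal A ^ (j + 1) := by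
  induction j with
  | zero => intro f _; simpa using C.E_mem f
  | succ j ih =>
    intro f hf
    rw [pow_succ] at hf
    refine Submodule.mul_induction_on hf (fun a ha b hb => ?_) (fun a b ha hb => ?_)
    · have e : C.E (a * b) - ((j + 1 : ℕ) : A) * (a * b)
          = a * (C.E b - b) + b * (C.E a - (j : A) * a) := by
        rw [C.E.leibniz, smul_eq_mul, smul_eq_mul]; push_cast; ring
      rw [e]
      refine add_mem ?_ ?_
      · have := Ideal.mul_mem_mul ha (C.E_sub_mem hb)
        rw [← pow_add] at this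
        exact this
      · rw [pow_succ' _ (j + 1)]
        exact Ideal.mul_mem_mul hb (ih a ha)
    · have e : C.E (a + b) - ((j + 1 : ℕ) : A) * (a + b)
          = (C.E a - ((j + 1 : ℕ) : A) * a) + (C.E b - ((j + 1 : ℕ) : A) * b) := by
        rw [map_add]; ring
      rw [e]; exact add_mem ha hb

theorem eq_bot_of_invariant [CharZero k] [IsNoetherianRing A] (J : Ideal A)
    (hJ : J ≤ maximalIdeal A) (h : ∀ i, ∀ f ∈ J, C.d i f ∈ J) : J = ⊥ := by
  have key : ∀ j : ℕ, 1 ≤ j → J ≤ maximalIdeal A ^ j := by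
    intro j hj
    induction j, hj using Nat.le_induction with
    | base => simpa using hJ
    | succ j hj ih =>
      intro f hf
      have h1 : C.E f ∈ maximalIdeal A ^ (j + 1) := by
        rw [C.E_apply]
        refine Submodule.sum_mem _ (fun i _ => ?_)
        rw [pow_succ']
        exact Ideal.mul_mem_mul (C.x_mem i) (ih (h i f hf))
      have h2 := sub_mem h1 (C.euler j f (ih hf))
      rw [sub_sub_cancel] at h2
      exact (Ideal.unit_mul_mem_iff_mem _ (natCast_isUnit (k := k) (by omega))).1 h2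
  rw [eq_bot_iff]
  intro f hf
  have : f ∈ ⨅ j : ℕ, maximalIdeal A ^ j := Ideal.mem_iInf.2 (fun j => by
    rcases Nat.eq_zero_or_pos j with rfl | hj
    · simp
    · exact key j hj hf)
  rwa [Ideal.iInf_pow_eq_bot_of_isLocalRing _ (IsLocalRing.maximalIdeal.isMaximal A).ne_top] at this

theorem le_span_coord [CharZero k] [IsNoetherianRing A] (l : Fin n) (I : Ideal A)
    (hI : I ≤ maximalIdeal A) (hx : C.x l ∈ I)
    (h : ∀ i, i ≠ l → ∀ f ∈ I, C.d i f ∈ I) : I ≤ Ideal.span {C.x l} := by
  set P := Ideal.span {C.x l} with hP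
  have key : ∀ j : ℕ, 1 ≤ j → I ≤ P ⊔ maximalIdeal A ^ j := by
    intro j hj
    induction j, hj using Nat.le_induction with
    | base => simpa using le_sup_of_le_right hI
    | succ j hj ih =>
      intro f hf
      obtain ⟨y, hy, g, hg, rfl⟩ := Submodule.mem_sup.1 (ih hf)
      have hyI : y ∈ I := by
        obtain ⟨a, rfl⟩ := Ideal.mem_span_singleton'.1 hy
        exact Ideal.mul_mem_left _ _ hx
      have hgI : g ∈ I := by simpa using sub_mem hf hyI
      refine add_mem (Submodule.mem_sup_left hy) ?_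
      have h1 : C.E g ∈ P ⊔ maximalIdeal A ^ (j + 1) := by
        rw [C.E_apply]
        refine Submodule.sum_mem _ (fun i _ => ?_)
        by_cases hi : i = l
        · subst hi
          exact Submodule.mem_sup_left (Ideal.mul_mem_right _ _ (Ideal.subset_span rfl))
        · obtain ⟨u, hu, v, hv, huv⟩ := Submodule.mem_sup.1 (ih (h i hi g hgI))
          rw [← huv, mul_add]
          refine Submodule.add_mem_sup (Ideal.mul_mem_left _ _ hu) ?_
          rw [pow_succ']
          exact Ideal.mul_mem_mul (C.x_mem i) hv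
      have h2 := sub_mem h1 (Submodule.mem_sup_right (C.euler j g hg))
      rw [sub_sub_cancel] at h2
      exact (Ideal.unit_mul_mem_iff_mem _ (natCast_isUnit (k := k) (by omega))).1 h2
  intro f hf
  have hP' : P ≤ maximalIdeal A := by
    rw [hP, Ideal.span_le, Set.singleton_subset_iff]; exact C.x_mem l
  have hPt : P ≠ ⊤ := fun e =>
    (IsLocalRing.maximalIdeal.isMaximal A).ne_top (top_le_iff.1 (e ▸ hP'))
  have : Nontrivial (A ⧸ P) := Ideal.Quotient.nontrivial_iff.2 hPt
  have : IsLocalRing (A ⧸ P) :=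
    IsLocalRing.of_surjective' (Ideal.Quotient.mk P) Ideal.Quotient.mk_surjective
  rw [← Ideal.Quotient.eq_zero_iff_mem]
  have hne : (maximalIdeal A).map (Ideal.Quotient.mk P) ≠ ⊤ := by
    intro e
    have := congr_arg (Ideal.comap (Ideal.Quotient.mk P)) e
    rw [Ideal.comap_map_of_surjective _ Ideal.Quotient.mk_surjective, Ideal.comap_top,
      ← RingHom.ker_eq_comap_bot, Ideal.mk_ker, sup_eq_left.2 hP'] at this
    exact (IsLocalRing.maximalIdeal.isMaximal A).ne_top this
  have hm : Ideal.Quotient.mk P f ∈ ⨅ j : ℕ, (maximalIdeal A).map (Ideal.Quotient.mk P) ^ j := by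
    refine Ideal.mem_iInf.2 (fun j => ?_)
    rcases Nat.eq_zero_or_pos j with rfl | hj
    · simp
    · rw [← Ideal.map_pow]
      have := Ideal.mem_map_of_mem (Ideal.Quotient.mk P) (key j hj hf)
      rwa [Ideal.map_sup, Ideal.map_quotient_self, bot_sup_eq] at this
  rwa [Ideal.iInf_pow_eq_bot_of_isLocalRing _ hne] at hm

end Chart

end Vale.Agent.P266.AC
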