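import Vale.Agent.P266.AC.Euler

namespace Vale.Agent.P266.AC

open IsLocalRing

variable {k A : Type*} [Field k] [CharZero k] [CommRing A] [Algebra k A] [IsLocalRing A]
  [IsNoetherianRing A] {n : ℕ}

def Gens {m : ℕ} (D : Fin m → Derivation k A A) : Prop :=
  ∀ F : Derivation k A A, ∃ a : Fin m → A, F = ∑ j, a j • D j

theorem exists_unit_partial (C : Chart k A n) (F : Derivation k A A) {u : A}
    (hu : IsUnit (F u)) : ∃ l, IsUnit (C.d l u) := by
  by_contra hne
  push_neg at hne
  have : F u ∈ maximalIdeal A := by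
    rw [C.decomp_apply F u]
    exact Submodule.sum_mem _ (fun l _ => Ideal.mul_mem_left _ _ (hne l))
  exact this hu

theorem le_span_of_invariant (C : Chart k A n) {m : ℕ} (D : Fin m → Derivation k A A)
    (hD : Gens D) (i : Fin m) (I : Ideal A) (hI : I ≤ maximalIdeal A) {u : A} (huI : u ∈ I)
    (hu : IsUnit (D i u)) (h : ∀ j, j ≠ i → ∀ f ∈ I, D j f ∈ I) : I ≤ Ideal.span {u} := by
  classical
  obtain ⟨l, hl⟩ := exists_unit_partial C (D i) hu
  obtain ⟨v, hv⟩ := hl.exists_left_inv
  let y : Fin n → A := Function.update C.x l u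
  let dd : Fin n → Derivation k A A := fun j =>
    if j = l then v • C.d l else C.d j - (C.d j u * v) • C.d l
  have hy : ∀ j, j ≠ l → y j = C.x j := fun j hj => Function.update_of_ne hj _ _
  have hyl : y l = u := Function.update_self _ _ _
  have dual : ∀ a b, dd a (y b) = if a = b then 1 else 0 := by
    intro a b
    by_cases ha : a = l <;> by_cases hb : b = l
    · subst ha; subst hb
      simp [dd, hyl, hv]
    · subst ha
      simp [dd, hy b hb, C.dual, Ne.symm hb]
    · subst hb
      simp [dd, ha, hyl, mul_assoc, hv]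
    · simp [dd, ha, hy b hb, C.dual, Ne.symm hb]
  have huu : u ∈ maximalIdeal A := hI huI
  obtain ⟨c, hc⟩ := C.exists_coeff huu
  have hcl : IsUnit (c l) := by
    by_contra hcl
    have : C.d l u ∈ maximalIdeal A := by
      rw [← hc, map_sum]
      refine Submodule.sum_mem _ (fun b _ => ?_)
      rw [(C.d l).leibniz, C.dual, smul_eq_mul, smul_eq_mul]
      refine add_mem ?_ (Ideal.mul_mem_right _ _ (C.x_mem b))
      by_cases hb : l = b
      · subst hb; simpa using hcl
      · simp [hb]
    exact this hl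
  have span_y : Ideal.span (Set.range y) = maximalIdeal A := by
    refine le_antisymm ?_ ?_
    · rw [Ideal.span_le]
      rintro _ ⟨b, rfl⟩
      by_cases hb : b = l
      · subst hb; rw [hyl]; exact huu
      · rw [hy b hb]; exact C.x_mem b
    · rw [← C.span_x, Ideal.span_le]
      rintro _ ⟨b, rfl⟩
      by_cases hb : b = l
      · subst hb
        obtain ⟨w, hw⟩ := hcl.exists_left_inv
        have : C.x b = w * (u - ∑ j ∈ Finset.univ.erase b, c j * C.x j) := by
          rw [← hc, ← Finset.add_sum_erase _ _ (Finset.mem_univ b), add_sub_cancel_right,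
            ← mul_assoc, hw, one_mul]
        rw [this]
        refine Ideal.mul_mem_left _ _ (sub_mem (Ideal.subset_span ⟨b, hyl⟩) ?_)
        refine Submodule.sum_mem _ (fun j hj => Ideal.mul_mem_left _ _ ?_)
        exact Ideal.subset_span ⟨j, hy j (Finset.ne_of_mem_erase hj)⟩
      · exact Ideal.subset_span ⟨b, hy b hb⟩
  let C' : Chart k A n := ⟨y, dd, span_y, C.res, dual⟩
  have key := C'.le_span_coord l I hI (by change y l ∈ I; rw [hyl]; exact huI) (fun a ha f hf => by
    change dd a f ∈ I
    obtain ⟨α, hα⟩ := hD (dd a)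
    have h0 : dd a u = 0 := by
      have := dual a l
      rwa [hyl, if_neg ha] at this
    rw [hα, Chart.der_apply_sum] at h0 ⊢
    have hαi : α i ∈ I := by
      have h1 : α i * D i u ∈ I := by
        rw [← Finset.add_sum_erase _ _ (Finset.mem_univ i)] at h0
        rw [eq_neg_of_add_eq_zero_left h0]
        refine neg_mem (Submodule.sum_mem _ (fun j hj => Ideal.mul_mem_left _ _ ?_))
        exact h j (Finset.ne_of_mem_erase hj) u huI
      exact (Ideal.mul_unit_mem_iff_mem _ hu).1 h1
    refine Submodule.sum_mem _ (fun j _ => ?_)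
    by_cases hj : j = i
    · subst hj; exact Ideal.mul_mem_right _ _ hαi
    · exact Ideal.mul_mem_left _ _ (h j hj f hf))
  have : C'.x l = u := hyl
  rwa [this] at key

def iterIdeal (D : Derivation k A A) (p : A) (l : ℕ) : Ideal A :=
  Ideal.span ((fun j => D^[j] p) '' Set.Iic l)

theorem iterIdeal_mono (D : Derivation k A A) (p : A) {a b : ℕ} (h : a ≤ b) :
    iterIdeal D p a ≤ iterIdeal D p b :=
  Ideal.span_mono (Set.image_mono (Set.Iic_subset_Iic.2 h))

theorem der_span_mem (F : Derivation k A A) {S : Set A} {I : Ideal A} (hSI : Ideal.span S ≤ I)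
    (h : ∀ a ∈ S, F a ∈ I) {f : A} (hf : f ∈ Ideal.span S) : F f ∈ I := by
  induction hf using Submodule.span_induction with
  | mem a ha => exact h a ha
  | zero => simp
  | add a b _ _ ha hb => rw [map_add]; exact add_mem ha hb
  | smul c a hs ha =>
    rw [smul_eq_mul, F.leibniz, smul_eq_mul, smul_eq_mul]
    exact add_mem (Ideal.mul_mem_left _ _ ha) (Ideal.mul_mem_right _ _ (hSI hs))

theorem D_iterIdeal (D : Derivation k A A) (p : A) (l : ℕ) {f : A}
    (hf : f ∈ iterIdeal D p l) : D f ∈ iterIdeal D p (l + 1) := by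
  refine der_span_mem D (iterIdeal_mono D p (Nat.le_succ l)) ?_ hf
  rintro _ ⟨j, hj, rfl⟩
  refine Ideal.subset_span ⟨j + 1, ?_, Function.iterate_succ_apply' _ _ _⟩
  simp at hj ⊢; omega

theorem iter_invariant {m : ℕ} (D : Fin m → Derivation k A A)
    (hD : Gens D) (i : Fin m) (p : A) (h : ∀ j, j ≠ i → p ∣ D j p) (l : ℕ) :
    ∀ j, j ≠ i → ∀ f ∈ iterIdeal (D i) p l, D j f ∈ iterIdeal (D i) p l := by
  induction l with
  | zero =>
    intro j hj f hf
    refine der_span_mem (D j) le_rfl ?_ hf
    rintro _ ⟨b, hb, rfl⟩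
    obtain rfl : b = 0 := by simpa using hb
    obtain ⟨c, hc⟩ := h j hj
    simp only [Function.iterate_zero, id_eq, hc]
    exact Ideal.mul_mem_right _ _ (Ideal.subset_span ⟨0, by simp, rfl⟩)
  | succ l ih =>
    intro j hj f hf
    refine der_span_mem (D j) le_rfl ?_ hf
    rintro _ ⟨b, hb, rfl⟩
    rcases Nat.lt_or_ge b (l + 1) with hb' | hb'
    · exact iterIdeal_mono _ p (Nat.le_succ l)
        (ih j hj _ (Ideal.subset_span ⟨b, by simp; omega, rfl⟩))
    obtain rfl : b = l + 1 := by simp at hb; omega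
    simp only [Function.iterate_succ_apply']
    set z := (D i)^[l] p with hz
    have zI : z ∈ iterIdeal (D i) p l := Ideal.subset_span ⟨l, by simp, hz.symm⟩
    obtain ⟨a, ha⟩ := hD ⁅D j, D i⁆
    have hb : D j (D i z) = D i (D j z) + ⁅D j, D i⁆ z := by
      rw [Derivation.commutator_apply]; ring
    rw [hb, ha, Chart.der_apply_sum]
    refine add_mem (D_iterIdeal _ p l (ih j hj z zI)) (Submodule.sum_mem _ (fun c _ => ?_))
    refine Ideal.mul_mem_left _ _ ?_
    by_cases hc : c = i
    · subst hc; exact D_iterIdeal _ p l zI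
    · exact iterIdeal_mono _ p (Nat.le_succ l) (ih c hc z zI)

theorem smooth_of_invariant [IsDomain A] (C : Chart k A n) {m : ℕ}
    (D : Fin m → Derivation k A A) (hD : Gens D) (i : Fin m) {p : A} (hp : Prime p)
    (h : ∀ j, j ≠ i → p ∣ D j p) : IsUnit (D i p) := by
  classical
  have hinv := iter_invariant D hD i p h
  have hex : ∃ l, (D i)^[l] p ∉ maximalIdeal A := by
    by_contra hall
    push_neg at hall
    let J : Ideal A := Ideal.span (Set.range fun l => (D i)^[l] p)
    have hJ : J ≤ maximalIdeal A := by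
      rw [Ideal.span_le]; rintro _ ⟨l, rfl⟩; exact hall l
    have hle : ∀ l, iterIdeal (D i) p l ≤ J := fun l =>
      Ideal.span_mono (Set.image_subset_range _ _)
    have hinvJ : ∀ j, ∀ f ∈ J, C.d j f ∈ J := by
      intro j f hf
      refine der_span_mem (C.d j) le_rfl ?_ hf
      rintro _ ⟨l, rfl⟩
      obtain ⟨a, ha⟩ := hD (C.d j)
      rw [ha, Chart.der_apply_sum]
      refine Submodule.sum_mem _ (fun c _ => Ideal.mul_mem_left _ _ ?_)
      by_cases hc : c = i
      · subst hc
        exact Ideal.subset_span ⟨l + 1, Function.iterate_succ_apply' _ _ _⟩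
      · exact hle l (hinv l c hc _ (Ideal.subset_span ⟨l, by simp, rfl⟩))
    have := C.eq_bot_of_invariant J hJ hinvJ
    have hpJ : p ∈ J := Ideal.subset_span ⟨0, rfl⟩
    rw [this] at hpJ
    exact hp.ne_zero (by simpa using hpJ)
  let l := Nat.find hex
  have hl : (D i)^[l] p ∉ maximalIdeal A := Nat.find_spec hex
  have hlt : ∀ b < l, (D i)^[b] p ∈ maximalIdeal A := fun b hb =>
    not_not.1 (Nat.find_min hex hb)
  rcases Nat.eq_zero_or_pos l with h0 | hpos
  · rw [h0] at hl
    exact absurd ((mem_maximalIdeal _).2 hp.not_unit) hl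
  obtain ⟨b, hb⟩ : ∃ b, l = b + 1 := ⟨l - 1, by omega⟩
  set u := (D i)^[b] p with hu
  have huu : IsUnit (D i u) := by
    rw [hb, Function.iterate_succ_apply'] at hl
    simpa [hu] using hl
  have hI : iterIdeal (D i) p b ≤ maximalIdeal A := by
    rw [iterIdeal, Ideal.span_le]
    rintro _ ⟨c, hc, rfl⟩
    exact hlt c (by simp at hc; omega)
  have key := le_span_of_invariant C D hD i _ hI
    (Ideal.subset_span ⟨b, by simp, hu.symm⟩) huu (hinv b)
  have hpu : p ∈ Ideal.span {u} := key (Ideal.subset_span ⟨0, by simp, rfl⟩)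
  obtain ⟨a, ha⟩ := Ideal.mem_span_singleton'.1 hpu
  have hum : u ∈ maximalIdeal A := hI (Ideal.subset_span ⟨b, by simp, hu.symm⟩)
  have hau : IsUnit a := (hp.irreducible.isUnit_or_isUnit ha.symm).resolve_right hum
  rw [← ha, (D i).leibniz, smul_eq_mul, smul_eq_mul]
  by_contra hnu
  have h2 : a * D i u + u * D i a ∈ maximalIdeal A := hnu
  have h3 := (Submodule.add_mem_iff_left _ (Ideal.mul_mem_right _ _ hum)).1 h2
  exact h3 (hau.mul huu)

theorem associated_of_invariant [IsDomain A] (C : Chart k A n) {m : ℕ}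
    (D : Fin m → Derivation k A A) (hD : Gens D) (i : Fin m) {p q : A} (hp : Prime p)
    (hq : Prime q) (hpi : ∀ j, j ≠ i → p ∣ D j p) (hqi : ∀ j, j ≠ i → q ∣ D j q) :
    Associated p q := by
  have hu := smooth_of_invariant C D hD i hp hpi
  have hI : Ideal.span {p, q} ≤ maximalIdeal A := by
    rw [Ideal.span_le, Set.insert_subset_iff, Set.singleton_subset_iff]
    exact ⟨hp.not_unit, hq.not_unit⟩
  have key := le_span_of_invariant C D hD i _ hI (Ideal.subset_span (Set.mem_insert _ _)) hu
    (fun j hj f hf => der_span_mem (D j) le_rfl (by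
      rintro a (rfl | rfl)
      · obtain ⟨c, hc⟩ := hpi j hj
        rw [hc]; exact Ideal.mul_mem_right _ _ (Ideal.subset_span (Set.mem_insert _ _))
      · obtain ⟨c, hc⟩ := hqi j hj
        rw [hc]
        exact Ideal.mul_mem_right _ _ (Ideal.subset_span (Set.mem_insert_of_mem _ rfl))) hf)
  have hqp : q ∈ Ideal.span {p} := key (Ideal.subset_span (Set.mem_insert_of_mem _ rfl))
  exact (hp.dvd_prime_iff_associated hq).1 (Ideal.mem_span_singleton.1 hqp)

end Vale.Agent.P266.AC
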