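import Vale.Agent.P266.AC.Basis

namespace Vale.Agent.P266.AC

open IsLocalRing

theorem exists_chain_over {A R : Type*} [CommRing A] [CommRing R] [Algebra A R]
    [Algebra.IsIntegral A R] (hinj : Function.Injective (algebraMap A R))
    (l : LTSeries (PrimeSpectrum A)) :
    ∃ L : LTSeries (PrimeSpectrum R), L.length = l.length ∧
      L.last.asIdeal.comap (algebraMap A R) = l.last.asIdeal := by
  induction l using RelSeries.inductionOn' with
  | singleton P =>
    obtain ⟨Q, _, hQ, hQP⟩ := Ideal.exists_ideal_over_prime_of_isIntegral P.asIdeal (⊥ : Ideal R)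
      (by rw [← RingHom.ker_eq_comap_bot, (RingHom.injective_iff_ker_eq_bot _).1 hinj]; exact bot_le)
    exact ⟨RelSeries.singleton _ ⟨Q, hQ⟩, rfl, by simpa using hQP⟩
  | snoc l P hP ih =>
    obtain ⟨L, hL, hlast⟩ := ih
    have hlt : l.last.asIdeal < P.asIdeal := hP
    obtain ⟨Q, hle, hQ, hQP⟩ := Ideal.exists_ideal_over_prime_of_isIntegral P.asIdeal
      L.last.asIdeal (by rw [hlast]; exact hlt.le)
    have hlt' : L.last.asIdeal < Q := lt_of_le_of_ne hle (fun e => hlt.ne (by
      rw [← hlast, ← hQP, e]))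
    exact ⟨L.snoc ⟨Q, hQ⟩ hlt', by simp [hL], by simpa using hQP⟩

theorem ringKrullDim_le_of_integral {A R : Type*} [CommRing A] [CommRing R] [Algebra A R]
    [Algebra.IsIntegral A R] (hinj : Function.Injective (algebraMap A R)) :
    ringKrullDim A ≤ ringKrullDim R := by
  refine iSup_le (fun l => ?_)
  obtain ⟨L, hL, _⟩ := exists_chain_over hinj l
  exact le_iSup_of_le L (by rw [hL])

variable {k A R G : Type*} [Field k] [IsAlgClosed k] [CharZero k] [CommRing A] [IsDomain A]
  [IsLocalRing A] [IsNoetherianRing A] [UniqueFactorizationMonoid A] [Algebra k A]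
  [CommRing R] [IsDomain R] [IsIntegrallyClosed R] [IsLocalRing R] [Algebra k R] [Algebra A R]
  [IsScalarTower k A R] [CommGroup G] [Fintype G] {ρ : G →* (R ≃ₐ[A] R)} {n : ℕ}

theorem dvd_der_of_assoc (D : Derivation k A A) {p q : A} (h : Associated p q) (hp : p ∣ D p) :
    q ∣ D q := by
  obtain ⟨u, rfl⟩ := h
  refine (Units.mul_right_dvd).2 ?_
  rw [D.leibniz, smul_eq_mul, smul_eq_mul]
  exact dvd_add (dvd_mul_right _ _) (hp.mul_left _)

variable {H : IsCover ρ} (C : Chart k A n) (F : Frame (k := k) H n)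
include C F

theorem Frame.pos_of_not_dvd {p : A} (hp : Prime p) {φ : G →* kˣ} (hφ : H.gen φ ≠ 0)
    (hw : 0 < ord p (H.nrm φ)) {i : Fin n} (hi : ¬ p ∣ F.D i p) :
    0 < ord p (H.nrm (F.chr i)) := by
  have h1 := H.necessity (F.alive i) hφ (F.down i) hp hw hi
  have h2 := H.wt_lt hφ hp
  omega

theorem Frame.unique {p : A} (hp : Prime p) {φ : G →* kˣ} (hφ : H.gen φ ≠ 0)
    (hw : 0 < ord p (H.nrm φ)) {i j : Fin n} (hi : ¬ p ∣ F.D i p) (hj : ¬ p ∣ F.D j p) :
    i = j := by
  classical
  by_contra hne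
  obtain ⟨c, hc, hcq⟩ := H.exists_cofactor (k := k) C hp
  set E : Derivation k A A := c • (F.D j p • F.D i - F.D i p • F.D j) with hE
  have hEp : E p = 0 := by
    rw [hE, Derivation.smul_apply, Derivation.sub_apply, Derivation.smul_apply,
      Derivation.smul_apply, smul_eq_mul, smul_eq_mul, smul_eq_mul]
    ring
  have hcond : H.Cond 1 E := fun χ hχ q hq hpos => by
    left
    rcases hcq χ hχ q hq hpos with h | h
    · rw [hE, Derivation.smul_apply, smul_eq_mul]; exact h.mul_right _
    · exact dvd_der_of_assoc E h.symm (by rw [hEp]; exact dvd_zero p)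
  obtain ⟨γ, hγ, hγ'⟩ := F.expand 1 H.gen_one_isUnit.ne_zero E hcond
  let a : Fin n → A := fun l =>
    γ l - c * ((if l = i then F.D j p else 0) - (if l = j then F.D i p else 0))
  have ha := F.indep a (by
    ext x
    have h1 := Derivation.congr_fun hγ x
    rw [sum_der_apply, hE] at h1
    simp only [Derivation.smul_apply, Derivation.sub_apply, smul_eq_mul] at h1
    rw [sum_der_apply, Derivation.zero_apply]
    simp only [a, sub_mul, mul_sub, Finset.sum_sub_distrib, ite_mul, zero_mul, mul_ite, mul_zero,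
      Finset.sum_ite_eq', Finset.mem_univ, if_true]
    linear_combination -h1)
  have hai := congr_fun ha i
  simp only [a, ↓reduceIte, if_neg hne, sub_zero, Pi.zero_apply, sub_eq_zero] at hai
  have h2 := hγ' i p hp (by rw [H.wt_one hp]; exact F.pos_of_not_dvd C hp hφ hw hi)
  rw [hai] at h2
  exact (hp.dvd_or_dvd h2).elim hc hj

theorem Frame.exists_not_dvd {p : A} (hp : Prime p) : ∃ i, ¬ p ∣ F.D i p := by
  by_contra hall
  push Not at hall
  have hle : Ideal.span {p} ≤ maximalIdeal A := by
    rw [Ideal.span_le, Set.singleton_subset_iff]; exact hp.not_isUnit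
  have := C.eq_bot_of_invariant (Ideal.span {p}) hle (fun l f hf => by
    refine der_span_mem (C.d l) le_rfl ?_ hf
    rintro _ rfl
    obtain ⟨a, ha⟩ := F.gens (C.d l)
    rw [ha, Chart.der_apply_sum]
    exact Submodule.sum_mem _ (fun i _ => Ideal.mul_mem_left _ _
      (Ideal.mem_span_singleton.2 (hall i))))
  exact hp.ne_zero (Ideal.span_singleton_eq_bot.1 this)

theorem Frame.not_dvd_of_pos {q : A} (hq : Prime q) {i : Fin n}
    (hw : 0 < ord q (H.nrm (F.chr i))) : ¬ q ∣ F.D i q := by
  classical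
  intro hd
  obtain ⟨c, hc, hcq⟩ := H.exists_cofactor (k := k) C hq
  have hcond : H.Cond 1 (c • F.D i) := fun χ hχ q' hq' hpos => by
    left
    rw [Derivation.smul_apply, smul_eq_mul]
    rcases hcq χ hχ q' hq' hpos with h | h
    · exact h.mul_right _
    · exact (dvd_der_of_assoc (F.D i) h.symm hd).mul_left _
  obtain ⟨γ, hγ, hγ'⟩ := F.expand 1 H.gen_one_isUnit.ne_zero _ hcond
  let a : Fin n → A := fun l => γ l - if l = i then c else 0
  have ha := F.indep a (by
    ext x
    have h1 := Derivation.congr_fun hγ x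
    rw [sum_der_apply, Derivation.smul_apply, smul_eq_mul] at h1
    rw [sum_der_apply, Derivation.zero_apply]
    simp only [a, sub_mul, Finset.sum_sub_distrib, ite_mul, zero_mul, Finset.sum_ite_eq',
      Finset.mem_univ, if_true]
    linear_combination -h1)
  have hai := congr_fun ha i
  simp only [a, ↓reduceIte, Pi.zero_apply, sub_eq_zero] at hai
  exact hc (hai ▸ hγ' i q hq (by rwa [H.wt_one hq]))

theorem Frame.assoc_of_pos {p q : A} (hp : Prime p) (hq : Prime q) {i : Fin n}
    (hpi : 0 < ord p (H.nrm (F.chr i))) (hqi : 0 < ord q (H.nrm (F.chr i))) :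
    Associated p q := by
  refine associated_of_invariant C F.D F.gens i hp hq (fun j hj => ?_) (fun j hj => ?_)
  · by_contra h
    exact hj (F.unique C hp (F.alive i) hpi h (F.not_dvd_of_pos C hp hpi))
  · by_contra h
    exact hj (F.unique C hq (F.alive i) hqi h (F.not_dvd_of_pos C hq hqi))

theorem Frame.regular [IsNoetherianRing R] [Algebra.IsIntegral A R]
    (hdim : ringKrullDim A = n) : IsRegularLocalRing R := by
  classical
  set m := Fintype.card G with hm
  have hm0 : m ≠ 0 := Fintype.card_ne_zero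
  choose b hb using fun l => F.gens (C.d l)
  let N : Matrix (Fin n) (Fin n) A := fun i l => F.D i (C.x l)
  let B : Matrix (Fin n) (Fin n) A := fun l i => b l i
  have hBN : B * N = 1 := by
    ext l h
    have := Derivation.congr_fun (hb l) (C.x h)
    rw [C.dual, sum_der_apply] at this
    rw [Matrix.mul_apply, Matrix.one_apply]
    exact this.symm
  have hNB : N * B = 1 := mul_eq_one_comm.1 hBN
  let Br : Fin n → Prop := fun i => ∃ p : A, Prime p ∧ 0 < ord p (H.nrm (F.chr i))
  let p : Fin n → A := fun i => if h : Br i then h.choose else 0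
  have hp : ∀ i, Br i → Prime (p i) ∧ 0 < ord (p i) (H.nrm (F.chr i)) := fun i h => by
    simp only [p, dif_pos h]; exact h.choose_spec
  have hdiv : ∀ i, Br i → ∀ j, j ≠ i → p i ∣ F.D j (p i) := fun i h j hj => by
    by_contra hn
    exact hj (F.unique C (hp i h).1 (F.alive i) (hp i h).2 hn
      (F.not_dvd_of_pos C (hp i h).1 (hp i h).2))
  let v : Fin n → A := fun i => Ring.inverse (F.D i (p i))
  have hv : ∀ i, Br i → F.D i (p i) * v i = 1 := fun i h =>
    Ring.mul_inverse_cancel _ (smooth_of_invariant C F.D F.gens i (hp i h).1 (hdiv i h))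
  let z : Fin n → A := fun i => if Br i then p i * v i else ∑ l, b l i * C.x l
  have hz : ∀ i, z i ∈ maximalIdeal A := fun i => by
    simp only [z]
    split
    · next h => exact Ideal.mul_mem_right _ _ (hp i h).1.not_isUnit
    · exact Submodule.sum_mem _ (fun l _ => Ideal.mul_mem_left _ _ (C.x_mem l))
  have hDz : ∀ j i, F.D j (z i) - (if j = i then 1 else 0) ∈ maximalIdeal A := fun j i => by
    simp only [z]
    by_cases h : Br i
    · rw [if_pos h, (F.D j).leibniz, smul_eq_mul, smul_eq_mul]
      have hpm : p i * F.D j (v i) ∈ maximalIdeal A :=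
        Ideal.mul_mem_right _ _ (hp i h).1.not_isUnit
      by_cases hji : j = i
      · subst hji
        rw [if_pos rfl, mul_comm (v j), hv j h, add_sub_cancel_right]
        exact hpm
      · rw [if_neg hji, sub_zero]
        obtain ⟨c, hc⟩ := hdiv i h j hji
        refine add_mem hpm (Ideal.mul_mem_left _ _ ?_)
        rw [hc]
        exact Ideal.mul_mem_right _ _ (hp i h).1.not_isUnit
    · rw [if_neg h, map_sum]
      have h1 := congr_fun (congr_fun hNB j) i
      rw [Matrix.mul_apply, Matrix.one_apply] at h1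
      rw [← h1, ← Finset.sum_sub_distrib]
      refine Submodule.sum_mem _ (fun l _ => ?_)
      rw [(F.D j).leibniz, smul_eq_mul, smul_eq_mul]
      simp only [N, B]
      rw [mul_comm (F.D j (C.x l)), add_sub_cancel_left]
      exact Ideal.mul_mem_right _ _ (C.x_mem l)
  have hspan : maximalIdeal A ≤ Ideal.span (Set.range z) := by
    refine Submodule.le_of_le_smul_of_le_jacobson_bot
      (IsNoetherian.noetherian _) (IsLocalRing.maximalIdeal_le_jacobson ⊥) (fun f hf => ?_)
    rw [smul_eq_mul, ← pow_two]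
    set g := f - ∑ i, F.D i f * z i with hg
    have hs : ∑ i, F.D i f * z i ∈ Ideal.span (Set.range z) :=
      Submodule.sum_mem _ (fun i _ => Ideal.mul_mem_left _ _ (Ideal.subset_span ⟨i, rfl⟩))
    have hgm : g ∈ maximalIdeal A :=
      sub_mem hf (Submodule.sum_mem _ (fun i _ => Ideal.mul_mem_left _ _ (hz i)))
    have hDg : ∀ j, F.D j g ∈ maximalIdeal A := fun j => by
      have e : F.D j g = - ∑ i, (F.D i f * (F.D j (z i) - if j = i then 1 else 0)
          + z i * F.D j (F.D i f)) := by
        rw [hg, map_sub, map_sum]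
        simp only [Derivation.leibniz, smul_eq_mul, mul_sub, mul_ite, mul_one, mul_zero,
          Finset.sum_add_distrib, Finset.sum_sub_distrib, Finset.sum_ite_eq, Finset.mem_univ,
          if_true]
        ring
      rw [e]
      exact neg_mem (Submodule.sum_mem _ (fun i _ => add_mem
        (Ideal.mul_mem_left _ _ (hDz j i)) (Ideal.mul_mem_right _ _ (hz i))))
    have hEg : C.E g ∈ maximalIdeal A ^ 2 := by
      rw [C.E_apply]
      refine Submodule.sum_mem _ (fun l _ => ?_)
      rw [pow_two]
      refine Ideal.mul_mem_mul (C.x_mem l) ?_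
      rw [hb l, Chart.der_apply_sum]
      exact Submodule.sum_mem _ (fun i _ => Ideal.mul_mem_left _ _ (hDg i))
    have hg2 : g ∈ maximalIdeal A ^ 2 := by
      have := sub_mem hEg (C.E_sub_mem hgm)
      rwa [sub_sub_cancel] at this
    have : f = ∑ i, F.D i f * z i + g := by rw [hg]; ring
    rw [this]
    exact Submodule.add_mem_sup hs hg2
  let y : Fin n → R := fun i => if Br i then H.gen (F.chr i)⁻¹ else algebraMap A R (z i)
  set J : Ideal R := Ideal.span (Set.range y) with hJ
  have hι : ∀ a ∈ maximalIdeal A, algebraMap A R a ∈ maximalIdeal R := fun a ha hu => by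
    obtain ⟨r, hr⟩ := hu.exists_right_inv
    obtain ⟨a', rfl⟩ := H.fixed r (fun g => by
      refine mul_left_cancel₀ hu.ne_zero ?_
      rw [hr]
      conv_rhs => rw [← map_one (ρ g), ← hr, map_mul, AlgEquiv.commutes])
    exact ha (IsUnit.of_mul_eq_one _ (H.inj (by rw [map_mul, hr, map_one])))
  have hinv : ∀ i (q : A), Prime q → 0 < ord q (H.nrm (F.chr i)⁻¹) →
      0 < ord q (H.nrm (F.chr i)) := fun i q hq h => by
    by_contra h0
    obtain ⟨j, hj⟩ := H.wt_mul (H.alive_inv (F.alive i)) (F.alive i) hq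
    have e : (F.chr i)⁻¹ * F.chr i = 1 := by ext g; simp
    rw [e, H.wt_one hq, Nat.eq_zero_of_not_pos h0, add_zero, add_zero] at hj
    have := H.wt_lt (H.alive_inv (F.alive i)) hq
    rcases Nat.eq_zero_or_pos j with rfl | hjp
    · rw [mul_zero] at hj; omega
    · have := Nat.mul_le_mul_left (Fintype.card G) hjp
      omega
  have hyp : ∀ i, algebraMap A R (z i) ∈ J := fun i => by
    have hyi : y i ∈ J := Ideal.subset_span ⟨i, rfl⟩
    by_cases h : Br i
    · simp only [y, if_pos h] at hyi
      obtain ⟨c, hc⟩ : H.gen (F.chr i)⁻¹ ∣ algebraMap A R (p i) := by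
        refine H.dvd_of_norm_dvd (H.nrm_eq _) (map_pow _ _ _)
          (dvd_of_ord_le (H.nrm_ne_zero (H.alive_inv (F.alive i)))
            (pow_ne_zero _ (hp i h).1.ne_zero) (fun q hq => ?_))
        rcases Nat.eq_zero_or_pos (ord q (H.nrm (F.chr i)⁻¹)) with h0 | hpos
        · rw [h0]; exact Nat.zero_le _
        have hass := F.assoc_of_pos C (hp i h).1 hq (hp i h).2 (hinv i q hq hpos)
        have h1 := H.wt_lt (H.alive_inv (F.alive i)) hq
        rw [ord_pow hq (hp i h).1.ne_zero]
        have h2 : 0 < ord q (p i) := (dvd_iff_ord_pos hq (hp i h).1.ne_zero).1 hass.symm.dvd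
        have h3 : m * 1 ≤ m * ord q (p i) := Nat.mul_le_mul_left _ h2
        rw [hm] at h3
        omega
      simp only [z, if_pos h, map_mul, hc]
      exact Ideal.mul_mem_right _ _ (Ideal.mul_mem_right _ _ hyi)
    · simpa only [y, if_neg h] using hyi
  have hym : ∀ i, y i ∈ maximalIdeal R := fun i => by
    by_cases h : Br i
    · simp only [y, if_pos h]
      have h1 := H.wt_inv (F.alive i) (hp i h).1 (hp i h).2
      have h2 := H.wt_lt (F.alive i) (hp i h).1
      have hd : p i ∣ H.nrm (F.chr i)⁻¹ :=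
        (dvd_iff_ord_pos (hp i h).1 (H.nrm_ne_zero (H.alive_inv (F.alive i)))).2 (by omega)
      have := hι _ (Ideal.mem_of_dvd _ hd (hp i h).1.not_isUnit)
      rw [H.nrm_eq] at this
      exact (maximalIdeal.isMaximal R).isPrime.mem_of_pow_mem _ this
    · simpa only [y, if_neg h] using hι _ (hz i)
  have hJle : J ≤ maximalIdeal R := by
    rw [hJ, Ideal.span_le]; rintro _ ⟨i, rfl⟩; exact hym i
  have hmA : ∀ a ∈ maximalIdeal A, algebraMap A R a ∈ J := fun a ha => by
    have := hspan ha
    obtain ⟨c, rfl⟩ := Ideal.mem_span_range_iff_exists_fun.1 this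
    rw [map_sum]
    exact Submodule.sum_mem _ (fun i _ => by
      rw [map_mul]; exact Ideal.mul_mem_left _ _ (hyp i))
  have hgen : ∀ χ : G →* kˣ, χ ≠ 1 → H.gen χ ∈ J := fun χ hne => by
    by_cases hχ : H.gen χ = 0
    · rw [hχ]; exact J.zero_mem
    by_cases hq : ∃ q : A, Prime q ∧ 0 < ord q (H.nrm χ)
    · obtain ⟨q, hq, hpos⟩ := hq
      obtain ⟨i, hi⟩ := F.exists_not_dvd C hq
      have hwi := F.pos_of_not_dvd C hq hχ hpos hi
      have hBr : Br i := ⟨q, hq, hwi⟩
      have hyi : H.gen (F.chr i)⁻¹ ∈ J := Ideal.subset_span ⟨i, by simp only [y, if_pos hBr]⟩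
      refine Ideal.mem_of_dvd _ ?_ hyi
      refine H.dvd_of_norm_dvd (H.nrm_eq _) (H.nrm_eq _)
        (dvd_of_ord_le (H.nrm_ne_zero (H.alive_inv (F.alive i))) (H.nrm_ne_zero hχ)
          (fun q' hq' => ?_))
      rcases Nat.eq_zero_or_pos (ord q' (H.nrm (F.chr i)⁻¹)) with h0 | hp'
      · rw [h0]; exact Nat.zero_le _
      have hass := F.assoc_of_pos C hq hq' hwi (hinv i q' hq' hp')
      rw [← ord_assoc hq hq' hass (H.nrm_ne_zero (H.alive_inv (F.alive i))),
        ← ord_assoc hq hq' hass (H.nrm_ne_zero hχ)]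
      have h1 := H.wt_inv (F.alive i) hq hwi
      have h2 := H.necessity (F.alive i) hχ (F.down i) hq hpos hi
      omega
    · exfalso
      push Not at hq
      have hbu : IsUnit (H.nrm χ) :=
        isUnit_of_ord_zero (H.nrm_ne_zero hχ) (fun q hq' => Nat.le_zero.1 (hq q hq'))
      have hgu : IsUnit (H.gen χ) := by
        rw [← isUnit_pow_iff (n := Fintype.card G) Fintype.card_ne_zero, ← H.nrm_eq]
        exact hbu.map _
      obtain ⟨c, hc⟩ := C.res (H.nrm χ)
      obtain ⟨d, hd⟩ := IsAlgClosed.exists_pow_nat_eq c (Fintype.card_pos (α := G))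
      haveI : NeZero ((m : ℕ) : k) := ⟨Nat.cast_ne_zero.2 hm0⟩
      obtain ⟨ζ, hζ⟩ := HasEnoughRootsOfUnity.exists_primitiveRoot k m
      have hpr := congr_arg (Polynomial.aeval (H.gen χ))
        (X_pow_sub_C_eq_prod hζ (Nat.pos_of_ne_zero hm0) (hd : d ^ m = c))
      simp only [map_sub, map_pow, map_prod, Polynomial.aeval_X, Polynomial.aeval_C] at hpr
      have hmem : H.gen χ ^ m - algebraMap k R c ∈ maximalIdeal R := by
        rw [hm, ← H.nrm_eq, IsScalarTower.algebraMap_apply k A R, ← map_sub]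
        exact hι _ hc
      rw [hpr] at hmem
      obtain ⟨j, _, hj⟩ := ((maximalIdeal.isMaximal R).isPrime.prod_mem_iff).1 hmem
      set e := (algebraMap k R ζ) ^ j * algebraMap k R d with he
      have he' : e = algebraMap k R (ζ ^ j * d) := by rw [he, map_mul, map_pow]
      have hj' : H.gen χ - algebraMap k R (ζ ^ j * d) ∈ maximalIdeal R := by
        simpa [map_mul, map_pow] using hj
      obtain ⟨g, hg⟩ : ∃ g, χ g ≠ 1 := by
        by_contra hall
        push Not at hall
        exact hne (MonoidHom.ext hall)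
      have hρ : ρ g (H.gen χ - algebraMap k R (ζ ^ j * d)) ∈ maximalIdeal R := by
        rw [mem_maximalIdeal, mem_nonunits_iff] at hj' ⊢
        intro hu
        exact hj' (by simpa only [AlgEquiv.symm_apply_apply] using hu.map (ρ g).symm)
      rw [map_sub, act_algk, (H.gen_eigen χ).act ρ g] at hρ
      have h3 := sub_mem hρ hj'
      rw [sub_sub_sub_cancel_right, ← sub_one_mul] at h3
      refine h3 (IsUnit.mul ?_ hgu)
      rw [← map_one (algebraMap k R), ← map_sub]
      exact (IsUnit.mk0 _ (sub_ne_zero.2 (by simpa using hg))).map _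
  have hle : maximalIdeal R ≤ J := fun r hr => by
    choose a ha using fun χ : G →* kˣ =>
      H.gen_spans χ (proj_isEig (actR (k := k) ρ) χ r : Eigen ρ χ _)
    have hr' : r = ∑ χ : G →* kˣ, algebraMap A R (a χ) * H.gen χ := by
      rw [← Finset.sum_congr rfl (fun χ _ => ha χ)]
      exact (sum_proj (actR (k := k) ρ) r).symm
    rw [← Finset.add_sum_erase _ _ (Finset.mem_univ (1 : G →* kˣ))] at hr'
    have hrest : ∑ χ ∈ Finset.univ.erase (1 : G →* kˣ), algebraMap A R (a χ) * H.gen χ ∈ J :=
      Submodule.sum_mem _ (fun χ hχ =>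
        Ideal.mul_mem_left _ _ (hgen χ (Finset.ne_of_mem_erase hχ)))
    rw [hr'] at hr ⊢
    refine add_mem (Ideal.mul_mem_right _ _ (hmA _ ?_)) hrest
    intro hu
    have h1 := sub_mem hr (hJle hrest)
    rw [add_sub_cancel_right] at h1
    exact h1 ((hu.map _).mul H.gen_one_isUnit)
  apply IsRegularLocalRing.of_spanFinrank_maximalIdeal_le
  refine le_trans ?_ (ringKrullDim_le_of_integral H.inj)
  rw [hdim, le_antisymm hle hJle, hJ, Nat.cast_le]
  refine (Submodule.spanFinrank_span_le_ncard_of_finite (Set.finite_range y)).trans ?_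
  rw [← Nat.card_coe_set_eq]
  exact le_of_le_of_eq (Finite.card_range_le y) (Nat.card_fin n)

end Vale.Agent.P266.AC
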