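import Mathlib

namespace Vale.Agent.P266.AC

variable {A : Type*} [CommRing A] [IsDomain A] [UniqueFactorizationMonoid A] {p : A}

theorem fm (hp : Prime p) {a : A} (ha : a ≠ 0) : FiniteMultiplicity p a :=
  FiniteMultiplicity.of_prime_left hp ha

noncomputable def ord (p a : A) : ℕ := multiplicity p a

theorem ord_mul (hp : Prime p) {a b : A} (ha : a ≠ 0) (hb : b ≠ 0) :
    ord p (a * b) = ord p a + ord p b :=
  multiplicity_mul hp (fm hp (mul_ne_zero ha hb))

theorem ord_pow (hp : Prime p) {a : A} (ha : a ≠ 0) (j : ℕ) :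
    ord p (a ^ j) = j * ord p a :=
  FiniteMultiplicity.multiplicity_pow hp (fm hp ha)

theorem pow_dvd_iff_le_ord (hp : Prime p) {a : A} (ha : a ≠ 0) {j : ℕ} :
    p ^ j ∣ a ↔ j ≤ ord p a :=
  ⟨fun h => (fm hp ha).le_multiplicity_of_pow_dvd h,
    fun h => dvd_trans (pow_dvd_pow p h) (pow_multiplicity_dvd p a)⟩

theorem dvd_iff_ord_pos (hp : Prime p) {a : A} (ha : a ≠ 0) : p ∣ a ↔ 0 < ord p a := by
  rw [← pow_one p, pow_dvd_iff_le_ord hp ha, pow_one]
  exact Nat.one_le_iff_ne_zero.trans pos_iff_ne_zero.symm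

theorem ord_le_of_dvd (hp : Prime p) {a b : A} (hb : b ≠ 0) (h : a ∣ b) :
    ord p a ≤ ord p b :=
  (pow_dvd_iff_le_ord hp hb).1 (dvd_trans (pow_multiplicity_dvd p a) h)

theorem ord_isUnit (hp : Prime p) {u : A} (hu : IsUnit u) : ord p u = 0 := by
  by_contra h
  exact hp.not_isUnit (isUnit_of_dvd_unit
    ((dvd_iff_ord_pos hp hu.ne_zero).2 (Nat.pos_of_ne_zero h)) hu)

theorem dvd_of_ord_le {a c : A} (ha : a ≠ 0) (hc : c ≠ 0)
    (h : ∀ q : A, Prime q → ord q a ≤ ord q c) : a ∣ c := by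
  induction a using UniqueFactorizationMonoid.induction_on_prime generalizing c with
  | h₁ => exact absurd rfl ha
  | h₂ u hu => exact hu.dvd
  | h₃ a q ha0 hq ih =>
    have h1 := h q hq
    rw [ord_mul hq hq.ne_zero ha0] at h1
    have hqq : 0 < ord q q := (dvd_iff_ord_pos hq hq.ne_zero).1 dvd_rfl
    obtain ⟨c', rfl⟩ : q ∣ c := (dvd_iff_ord_pos hq hc).2 (by omega)
    have hc' : c' ≠ 0 := right_ne_zero_of_mul hc
    refine mul_dvd_mul_left q (ih ha0 hc' (fun r hr => ?_))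
    have := h r hr
    rw [ord_mul hr hq.ne_zero ha0, ord_mul hr hq.ne_zero hc'] at this
    omega

theorem isUnit_of_ord_zero {a : A} (ha : a ≠ 0) (h : ∀ q : A, Prime q → ord q a = 0) :
    IsUnit a :=
  isUnit_of_dvd_one (dvd_of_ord_le ha one_ne_zero (fun q hq => by rw [h q hq]; exact Nat.zero_le _))

theorem exists_eq_pow_ord_mul (hp : Prime p) {a : A} (ha : a ≠ 0) :
    ∃ u, a = p ^ ord p a * u ∧ ¬ p ∣ u :=
  (fm hp ha).exists_eq_pow_mul_and_not_dvd

variable {k : Type*} [Field k] [CharZero k] [Algebra k A]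

theorem ord_der_le (D : Derivation k A A) (hp : Prime p) {b : A} (hb : b ≠ 0)
    (hD : D b ≠ 0) :
    ord p b ≤ ord p (D b) + 1 ∧ (p ∣ D p → ord p b ≤ ord p (D b)) ∧
      (¬ p ∣ D p → 0 < ord p b → ord p (D b) + 1 = ord p b) := by
  obtain ⟨u, hu, hpu⟩ := exists_eq_pow_ord_mul hp hb
  generalize hv : ord p b = v at hu ⊢
  rcases Nat.eq_zero_or_pos v with rfl | hpos
  · simp
  obtain ⟨w, rfl⟩ : ∃ w, v = w + 1 := ⟨v - 1, by omega⟩
  have e : D b = p ^ w * ((w + 1 : ℕ) * D p * u + p * D u) := by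
    rw [hu, D.leibniz, D.leibniz_pow, smul_eq_mul, smul_eq_mul, nsmul_eq_mul, smul_eq_mul,
      Nat.add_sub_cancel]
    push_cast; ring
  have h1 : w ≤ ord p (D b) := (pow_dvd_iff_le_ord hp hD).1 ⟨_, e⟩
  refine ⟨by omega, fun hd => ?_, fun hd _ => ?_⟩
  · refine (pow_dvd_iff_le_ord hp hD).1 ?_
    obtain ⟨c, hc⟩ := hd
    exact ⟨(w + 1 : ℕ) * c * u + D u, by rw [e, hc, pow_succ]; ring⟩
  · have hju : IsUnit ((w + 1 : ℕ) : A) := by
      have : IsUnit (((w + 1 : ℕ) : k)) := IsUnit.mk0 _ (Nat.cast_ne_zero.2 (by omega))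
      simpa using this.map (algebraMap k A)
    have hnd : ¬ p ∣ ((w + 1 : ℕ) * D p * u + p * D u) := by
      intro hh
      have h2 := (dvd_add_left (dvd_mul_right p (D u))).1 hh
      rcases hp.dvd_or_dvd h2 with h3 | h3
      · rcases hp.dvd_or_dvd h3 with h4 | h4
        · exact hp.not_isUnit (isUnit_of_dvd_unit h4 hju)
        · exact hd h4
      · exact hpu h3
    by_contra hne
    have h5 : p ^ (w + 1) ∣ D b := (pow_dvd_iff_le_ord hp hD).2 (by omega)
    rw [e, pow_succ] at h5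
    exact hnd ((mul_dvd_mul_iff_left (pow_ne_zero _ hp.ne_zero)).1 h5)

end Vale.Agent.P266.AC
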